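import Claimed.Agent.R285.Read.C2
import Claimed.Agent.R285.Xy.Mass

/-!
# ROW 285, unit MASS, file 3: small coefficient on a range of dyadic scales ⟹ decay of the spin correlation   (owner helper164; NO sorry of its own)

FINITE form of [E] P6.5 (prop:mass-polynomial) and of [C] P2.6, case `a = 0`: no sequence, no limit, uniform in `b ≤ β`.   Inputs: `C2.spin_tilt`, `C2.affine_small`, `C2.rc_translate`.

## Geometry (sup norm annuli; replaces the circular annuli, the smooth cutoff `χ` and the Riemann sums of the paper)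
`G ≥ 1` (number of cells per radius), scale `j`: cell side `m = 2^j`, radius `ρ = G m`.
* `ramp ρ z = clamp((|z|_∞ - ρ)/ρ, 0, 1)` on the spin vertices;  stream function `psi lam G j₁ j₂ = lam ∑_{j₁ ≤ j < j₂} ramp (G 2^j)`;  `psi 0 = 0`, `psi y = lam (j₂ - j₁)` for `|y|_∞ ≥ 2 G 2^{j₂-1}`.
* cells of faces `cell m (a,c) = [am,(a+1)m) × [cm,(c+1)m)`; ring index of a cell `max (cidx a) (cidx c)`, `cidx a = max a (-a-1)`.
  GOOD cells of the scale: `G ≤ max (cidx a) (cidx c) < 2G` and `cidx a ≠ cidx c` (not on a diagonal).  On the closed spin square of a good cell `|z|_∞` is one of `± z.1, ± z.2`, so `psi` is AFFINE with slope `lam/ρ`.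
* all the other bonds pay the reference cost `b (cosh(rot psi) - 1) ≤ b (rot psi)²`, `|rot psi| ≤ lam/ρ`, and `rot psi ≠ 0` only for bonds crossing a spin bond of a closed annulus `ρ ≤ |z|_∞ ≤ 2ρ`:
  per scale at most `8 G m²` bonds in the `4G` diagonal cells and at most `60 G² m` seam bonds: cost `≤ b lam² (8/G + 60/m)`.
* per scale: gain `lam`, cost `12 G² log(1 + C a_m^{1/4}) + b lam² (8/G + 60/m)`.  Choose `G`, then `j₀`, then `ε`.
-/

set_option autoImplicit false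

namespace Claimed.Agent.R285.Mass

open Filter Topology Claims.C0459 Claimed.Agent.R285.C2
open scoped Classical

noncomputable section

/-! ## 1. the stream function -/

/-- `clamp((|z|_∞ - ρ)/ρ, 0, 1)`. -/
def ramp (ρ : ℕ) (z : ℤ × ℤ) : ℝ := min (max ((latNorm z : ℝ) - ρ) 0) ρ / ρ

/-- the stream function. -/
def psi (lam : ℝ) (G j₁ j₂ : ℕ) (z : ℤ × ℤ) : ℝ := lam * ∑ j ∈ Finset.Ico j₁ j₂, ramp (G * 2 ^ j) z

/-- L-MASS-T1. -/
theorem ramp_of_le (ρ : ℕ) (z : ℤ × ℤ) (h : latNorm z ≤ ρ) : ramp ρ z = 0 := by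
  have h' : (latNorm z : ℝ) ≤ ρ := by exact_mod_cast h
  unfold ramp
  rw [max_eq_right (by linarith), min_eq_left (Nat.cast_nonneg ρ), zero_div]

/-- L-MASS-T1. -/
theorem ramp_of_ge (ρ : ℕ) (hρ : 0 < ρ) (z : ℤ × ℤ) (h : 2 * ρ ≤ latNorm z) : ramp ρ z = 1 := by
  have h' : 2 * (ρ : ℝ) ≤ latNorm z := by exact_mod_cast h
  have hρ' : (0 : ℝ) < ρ := by exact_mod_cast hρ
  unfold ramp
  rw [max_eq_left (by linarith), min_eq_right (by linarith), div_self hρ'.ne']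

/-- L-MASS-T1. -/
theorem ramp_of_mem (ρ : ℕ) (z : ℤ × ℤ) (h1 : ρ ≤ latNorm z) (h2 : latNorm z ≤ 2 * ρ) : ramp ρ z = ((latNorm z : ℝ) - ρ) / ρ := by
  have h1' : (ρ : ℝ) ≤ latNorm z := by exact_mod_cast h1
  have h2' : (latNorm z : ℝ) ≤ 2 * ρ := by exact_mod_cast h2
  unfold ramp
  rw [max_eq_left (by linarith), min_eq_left (by linarith)]

theorem latNorm_adj (u u' : ℤ × ℤ) (h : latAdj u u') : |(latNorm u' : ℝ) - latNorm u| ≤ 1 := by
  have h1 : latNorm u' ≤ latNorm u + 1 ∧ latNorm u ≤ latNorm u' + 1 := by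
    unfold latAdj at h
    unfold latNorm
    omega
  have h2 : (latNorm u' : ℝ) ≤ latNorm u + 1 := by exact_mod_cast h1.1
  have h3 : (latNorm u : ℝ) ≤ latNorm u' + 1 := by exact_mod_cast h1.2
  rw [abs_le]; constructor <;> linarith

/-- L-MASS-T1: `ramp` is `1/ρ`-Lipschitz along spin bonds (`|latNorm u - latNorm u'| ≤ 1`; `min`, `max` are 1-Lipschitz). -/
theorem ramp_lip (ρ : ℕ) (u u' : ℤ × ℤ) (h : latAdj u u') : |ramp ρ u' - ramp ρ u| ≤ 1 / ρ := by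
  unfold ramp
  rw [← sub_div, abs_div, abs_of_nonneg (Nat.cast_nonneg ρ : (0 : ℝ) ≤ (ρ : ℝ))]
  refine div_le_div_of_nonneg_right ?_ (Nat.cast_nonneg ρ)
  refine (abs_min_sub_min_le_max _ _ _ _).trans ?_
  rw [sub_self, abs_zero, max_eq_left (abs_nonneg _)]
  refine (abs_max_sub_max_le_max _ _ _ _).trans ?_
  rw [sub_self, abs_zero, max_eq_left (abs_nonneg _)]
  have := latNorm_adj u u' h
  have e : (latNorm u' : ℝ) - ρ - ((latNorm u : ℝ) - ρ) = (latNorm u' : ℝ) - latNorm u := by ring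
  rwa [e]

/-- L-MASS-T1. -/
theorem psi_zero (lam : ℝ) (G j₁ j₂ : ℕ) : psi lam G j₁ j₂ (0, 0) = 0 := by
  unfold psi
  rw [Finset.sum_eq_zero, mul_zero]
  intro j _
  exact ramp_of_le _ _ (by simp [latNorm])

/-- L-MASS-T1. -/
theorem psi_far (lam : ℝ) (G j₁ j₂ : ℕ) (hG : 1 ≤ G) (hj : j₁ ≤ j₂) (y : ℤ × ℤ) (hy : G * 2 ^ j₂ ≤ latNorm y) :
    psi lam G j₁ j₂ y = lam * ((j₂ : ℝ) - j₁) := by
  unfold psi
  congr 1
  rw [Finset.sum_congr rfl (g := fun _ => (1 : ℝ))]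
  · rw [Finset.sum_const, Nat.card_Ico, nsmul_eq_mul, mul_one, Nat.cast_sub hj]
  · intro j hjm
    refine ramp_of_ge _ (by positivity) _ (le_trans ?_ hy)
    have h1 : j + 1 ≤ j₂ := (Finset.mem_Ico.1 hjm).2
    have h2 : 2 ^ (j + 1) ≤ 2 ^ j₂ := Nat.pow_le_pow_right (by norm_num) h1
    calc 2 * (G * 2 ^ j) = G * 2 ^ (j + 1) := by ring
      _ ≤ G * 2 ^ j₂ := Nat.mul_le_mul_left _ h2

/-! ## 2. the cells -/

/-- ring index of a coordinate of a cell (or of a face). -/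
def cidx (a : ℤ) : ℤ := max a (-a - 1)

/-- the cell of faces `[am,(a+1)m) × [cm,(c+1)m)`. -/
def cell (m : ℕ) (κ : ℤ × ℤ) : Rc := ⟨(κ.1 * m, κ.2 * m), m, m⟩

/-- the good cells of one scale. -/
def goodIdx (G : ℕ) : Finset (ℤ × ℤ) :=
  (Finset.Ico (-(2 * G : ℤ)) (2 * G) ×ˢ Finset.Ico (-(2 * G : ℤ)) (2 * G)).filter fun κ =>
    (G : ℤ) ≤ max (cidx κ.1) (cidx κ.2) ∧ cidx κ.1 ≠ cidx κ.2

/-- all good cells: (scale, index). -/
def cellIdx (G j₁ j₂ : ℕ) : Finset (ℕ × (ℤ × ℤ)) := Finset.Ico j₁ j₂ ×ˢ goodIdx G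

/-- the family of cells of `C2.spin_tilt`. -/
def cellQ (G j₁ j₂ : ℕ) (i : cellIdx G j₁ j₂) : Rc := cell (2 ^ i.1.1) i.1.2

/-- L-MASS-T2. -/
theorem goodIdx_card (G : ℕ) : ((goodIdx G).card : ℝ) ≤ 16 * (G : ℝ) ^ 2 := by
  have h1 : (goodIdx G).card ≤ (4 * G) * (4 * G) := by
    refine (Finset.card_filter_le _ _).trans ?_
    rw [Finset.card_product, Int.card_Ico]
    have : (2 * (G : ℤ) - -(2 * (G : ℤ))).toNat = 4 * G := by omega
    rw [this]
  have h2 : ((goodIdx G).card : ℝ) ≤ ((4 * G) * (4 * G) : ℕ) := by exact_mod_cast h1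
  refine h2.trans (le_of_eq ?_)
  push_cast; ring

theorem mem_cell_set (m : ℕ) (κ v : ℤ × ℤ) : v ∈ (cell m κ).set ↔
    κ.1 * m ≤ v.1 ∧ v.1 < κ.1 * m + m ∧ κ.2 * m ≤ v.2 ∧ v.2 < κ.2 * m + m := by
  unfold cell Rc.set
  simp only [Finset.mem_product, Finset.mem_Ico]
  tauto

theorem cidx_one (m : ℕ) (a v : ℤ) (h1 : a * m ≤ v) (h2 : v < a * m + m) : cidx a * m ≤ cidx v ∧ cidx v < (cidx a + 1) * m := by
  have hm : (0 : ℤ) ≤ m := Int.natCast_nonneg m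
  unfold cidx
  rcases le_or_gt 0 a with ha | ha
  · have h3 : 0 ≤ a * m := mul_nonneg ha hm
    rw [max_eq_left (by omega : -a - 1 ≤ a), max_eq_left (by omega : -v - 1 ≤ v)]
    constructor
    · exact h1
    · rw [add_mul, one_mul]; exact h2
  · have h3 : (a + 1) * m ≤ 0 := mul_nonpos_of_nonpos_of_nonneg (by omega) hm
    rw [add_mul, one_mul] at h3
    rw [max_eq_right (by omega : a ≤ -a - 1), max_eq_right (by omega : v ≤ -v - 1)]
    constructor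
    · have : (-a - 1) * (m : ℤ) = -(a * m) - m := by ring
      rw [this]; omega
    · have : (-a - 1 + 1) * (m : ℤ) = -(a * m) := by ring
      rw [this]; omega

/-- L-MASS-T2: a face `v` of the cell `κ` at side `m`: `cidx κ.1 * m ≤ cidx v.1 < (cidx κ.1 + 1) * m`, the same for the second coordinate. -/
theorem cidx_face (m : ℕ) (κ v : ℤ × ℤ) (hv : v ∈ (cell m κ).set) :
    cidx κ.1 * m ≤ cidx v.1 ∧ cidx v.1 < (cidx κ.1 + 1) * m ∧ cidx κ.2 * m ≤ cidx v.2 ∧ cidx v.2 < (cidx κ.2 + 1) * m := by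
  obtain ⟨h1, h2, h3, h4⟩ := (mem_cell_set m κ v).1 hv
  exact ⟨(cidx_one m _ _ h1 h2).1, (cidx_one m _ _ h1 h2).2, (cidx_one m _ _ h3 h4).1, (cidx_one m _ _ h3 h4).2⟩

theorem mem_goodIdx (G : ℕ) (κ : ℤ × ℤ) : κ ∈ goodIdx G ↔
    (-(2 * G : ℤ) ≤ κ.1 ∧ κ.1 < 2 * G) ∧ (-(2 * G : ℤ) ≤ κ.2 ∧ κ.2 < 2 * G) ∧ (G : ℤ) ≤ max (cidx κ.1) (cidx κ.2) ∧ cidx κ.1 ≠ cidx κ.2 := by
  unfold goodIdx
  simp only [Finset.mem_filter, Finset.mem_product, Finset.mem_Ico]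
  tauto

/-- the ring index of a face of a good cell. -/
theorem face_ring (G m : ℕ) (κ v : ℤ × ℤ) (hκ : κ ∈ goodIdx G) (hv : v ∈ (cell m κ).set) :
    (G : ℤ) * m ≤ max (cidx v.1) (cidx v.2) ∧ max (cidx v.1) (cidx v.2) < 2 * ((G : ℤ) * m) := by
  obtain ⟨h1, h2, h3, h4⟩ := cidx_face m κ v hv
  obtain ⟨⟨g1, g2⟩, ⟨g3, g4⟩, g5, -⟩ := (mem_goodIdx G κ).1 hκ
  have hm : (0 : ℤ) ≤ m := Int.natCast_nonneg m
  have u1 : (cidx κ.1 + 1) * (m : ℤ) ≤ 2 * G * m := mul_le_mul_of_nonneg_right (by unfold cidx; omega) hm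
  have u2 : (cidx κ.2 + 1) * (m : ℤ) ≤ 2 * G * m := mul_le_mul_of_nonneg_right (by unfold cidx; omega) hm
  have e : 2 * (G : ℤ) * m = 2 * ((G : ℤ) * m) := by ring
  rw [e] at u1 u2
  constructor
  · rcases le_max_iff.1 g5 with g | g
    · have := mul_le_mul_of_nonneg_right g hm
      exact le_max_of_le_left (this.trans h1)
    · have := mul_le_mul_of_nonneg_right g hm
      exact le_max_of_le_right (this.trans h3)
  · exact max_lt (lt_of_lt_of_le h2 u1) (lt_of_lt_of_le h4 u2)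

theorem two_pow_succ_le {j j₂ : ℕ} (G : ℕ) (h : j < j₂) : 2 * ((G : ℤ) * ((2 ^ j : ℕ) : ℤ)) ≤ ((G * 2 ^ j₂ : ℕ) : ℤ) := by
  have h2 : 2 ^ (j + 1) ≤ 2 ^ j₂ := Nat.pow_le_pow_right (by norm_num) h
  have h3 : 2 * (G * 2 ^ j) ≤ G * 2 ^ j₂ := by
    calc 2 * (G * 2 ^ j) = G * 2 ^ (j + 1) := by ring
      _ ≤ G * 2 ^ j₂ := Nat.mul_le_mul_left _ h2
  exact_mod_cast h3

/-- L-MASS-T2: hypothesis `hQ` of `spin_tilt`. -/
theorem cellQ_inside (G j₁ j₂ R : ℕ) (hR : G * 2 ^ j₂ ≤ R) (i : cellIdx G j₁ j₂) :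
    ∀ v ∈ (cellQ G j₁ j₂ i).set, v ∈ (dualRc R).set ∧ v ∉ ring R := by
  intro v hv
  have hi := Finset.mem_product.1 i.2
  have hi1 := Finset.mem_Ico.1 hi.1
  have h1 := (face_ring G (2 ^ i.1.1) i.1.2 v hi.2 hv).2
  have h2 := two_pow_succ_le G hi1.2
  have hR' : ((G * 2 ^ j₂ : ℕ) : ℤ) ≤ R := by exact_mod_cast hR
  have h3 : max (cidx v.1) (cidx v.2) < R := by omega
  unfold cidx at h3
  constructor
  · unfold dualRc Rc.set
    simp only [Finset.mem_product, Finset.mem_Ico]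
    push_cast
    omega
  · unfold ring
    simp only [Set.mem_ofPred_eq]
    omega

/-- L-MASS-T2: hypothesis `hdis` of `spin_tilt` (same scale: different cells of one grid; different scales: `max (cidx v.1) (cidx v.2) ∈ [G 2^j, 2 G 2^j)`, `cidx_face`). -/
theorem cellQ_disjoint (G j₁ j₂ : ℕ) (i i' : cellIdx G j₁ j₂) (h : i ≠ i') :
    Disjoint (cellQ G j₁ j₂ i).set (cellQ G j₁ j₂ i').set := by
  rw [Finset.disjoint_left]
  intro v hv hv'
  apply h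
  have hi := Finset.mem_product.1 i.2
  have hi' := Finset.mem_product.1 i'.2
  have r := face_ring G (2 ^ i.1.1) i.1.2 v hi.2 hv
  have r' := face_ring G (2 ^ i'.1.1) i'.1.2 v hi'.2 hv'
  -- same scale
  have hsc : i.1.1 = i'.1.1 := by
    by_contra hne
    rcases Nat.lt_or_gt_of_ne hne with hlt | hlt
    · have := two_pow_succ_le G hlt
      push_cast at this
      push_cast at r r'
      omega
    · have := two_pow_succ_le G hlt
      push_cast at this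
      push_cast at r r'
      omega
  have hv2 : v ∈ (cell (2 ^ i.1.1) i'.1.2).set := by
    have : cellQ G j₁ j₂ i' = cell (2 ^ i.1.1) i'.1.2 := by unfold cellQ; rw [hsc]
    rw [← this]; exact hv'
  obtain ⟨a1, a2, a3, a4⟩ := (mem_cell_set _ _ _).1 (show v ∈ (cell (2 ^ i.1.1) i.1.2).set from hv)
  obtain ⟨b1, b2, b3, b4⟩ := (mem_cell_set _ _ _).1 hv2
  have hm : (0 : ℤ) < ((2 ^ i.1.1 : ℕ) : ℤ) := by positivity
  have key : ∀ a a' t : ℤ, a * ((2 ^ i.1.1 : ℕ) : ℤ) ≤ t → t < a * ((2 ^ i.1.1 : ℕ) : ℤ) + ((2 ^ i.1.1 : ℕ) : ℤ) →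
      a' * ((2 ^ i.1.1 : ℕ) : ℤ) ≤ t → t < a' * ((2 ^ i.1.1 : ℕ) : ℤ) + ((2 ^ i.1.1 : ℕ) : ℤ) → a = a' := by
    intro a a' t h1 h2 h3 h4
    have e1 : a * ((2 ^ i.1.1 : ℕ) : ℤ) < (a' + 1) * ((2 ^ i.1.1 : ℕ) : ℤ) := by rw [add_mul, one_mul]; omega
    have e2 : a' * ((2 ^ i.1.1 : ℕ) : ℤ) < (a + 1) * ((2 ^ i.1.1 : ℕ) : ℤ) := by rw [add_mul, one_mul]; omega
    have f1 := lt_of_mul_lt_mul_right e1 hm.le
    have f2 := lt_of_mul_lt_mul_right e2 hm.le
    omega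
  have k1 := key _ _ _ a1 a2 b1 b2
  have k2 := key _ _ _ a3 a4 b3 b4
  apply Subtype.ext
  exact Prod.ext hsc (Prod.ext k1 k2)

theorem latNorm_eq_cidx (x : ℤ × ℤ) : (latNorm x : ℤ) = max (max (cidx x.1) (cidx (x.1 - 1))) (max (cidx x.2) (cidx (x.2 - 1))) := by
  unfold latNorm cidx
  omega

/-- L-MASS-T2: hypothesis `hsrc` of `spin_tilt`: an enclosed spin vertex `x` has `G 2^j ≤ |x|_∞ < 2 G 2^j`. -/
theorem cellQ_inner (G j₁ j₂ : ℕ) (hG : 1 ≤ G) (i : cellIdx G j₁ j₂) (x : ℤ × ℤ) (hx : x ∈ (cellQ G j₁ j₂ i).inner) :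
    1 ≤ latNorm x ∧ latNorm x < G * 2 ^ j₂ := by
  have hi := Finset.mem_product.1 i.2
  have hi1 := Finset.mem_Ico.1 hi.1
  have hx' : i.1.2.1 * ((2 ^ i.1.1 : ℕ) : ℤ) + 1 ≤ x.1 ∧ x.1 + 1 ≤ i.1.2.1 * ((2 ^ i.1.1 : ℕ) : ℤ) + ((2 ^ i.1.1 : ℕ) : ℤ) ∧
      i.1.2.2 * ((2 ^ i.1.1 : ℕ) : ℤ) + 1 ≤ x.2 ∧ x.2 + 1 ≤ i.1.2.2 * ((2 ^ i.1.1 : ℕ) : ℤ) + ((2 ^ i.1.1 : ℕ) : ℤ) := hx
  obtain ⟨x1, x2, x3, x4⟩ := hx'
  have v1 : x ∈ (cell (2 ^ i.1.1) i.1.2).set := (mem_cell_set _ _ _).2 ⟨by omega, by omega, by omega, by omega⟩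
  have v2 : (x.1 - 1, x.2 - 1) ∈ (cell (2 ^ i.1.1) i.1.2).set := (mem_cell_set _ _ _).2 ⟨by simp only; omega, by simp only; omega, by simp only; omega, by simp only; omega⟩
  have r1 := face_ring G _ _ _ hi.2 v1
  have r2 := face_ring G _ _ _ hi.2 v2
  simp only at r2
  have h2 := two_pow_succ_le G hi1.2
  have hN := latNorm_eq_cidx x
  have hGm : (1 : ℤ) ≤ (G : ℤ) * ((2 ^ i.1.1 : ℕ) : ℤ) := by
    have : 1 ≤ G * 2 ^ i.1.1 := Nat.one_le_iff_ne_zero.2 (by positivity)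
    exact_mod_cast this
  constructor
  · have : (1 : ℤ) ≤ latNorm x := by omega
    exact_mod_cast this
  · have : (latNorm x : ℤ) < ((G * 2 ^ j₂ : ℕ) : ℤ) := by omega
    exact_mod_cast this

/-! ## 3. the transform of a good cell -/

-- `rot_psi_cell` (L-MASS-T3): at the end of section 4 (it uses `spA`, `spB`, `rot_psi_eq`).

/-- L-MASS-T4: the transform of a translated square with an affine test (`rc_translate`, `affine_small`; the gradient of an affine function is translation invariant). -/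
theorem cell_affine (β P : ℝ) : ∃ C : ℝ, 0 ≤ C ∧ ∀ (b : ℝ), 0 < b → b ≤ β → ∀ (m : ℕ), 1 ≤ m → ∀ (κ : ℤ × ℤ) (p₁ p₂ : ℝ), |p₁| ≤ P → |p₂| ≤ P →
    ∀ w : Bond → ℝ, (∀ e ∈ (cell m κ).bd, w e = 2 * Real.pi * gd (fun v => (p₁ * v.1 + p₂ * v.2) / m) e) →
    ((cell m κ).sys b).E0 (fun z => Real.exp (flowS ((cell m κ).sys b) (fun e => w (domBond (D := (cell m κ).set) (cut := ∅) e)) z))
      ≤ 1 + C * aCoef b m ^ ((1 : ℝ) / 4) := by
  obtain ⟨C, hC⟩ := affine_small β P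
  refine ⟨max C 0, le_max_right _ _, fun b hb hbβ m hm κ p₁ p₂ hp1 hp2 w hw => ?_⟩
  have h1 := hC b hb hbβ m hm p₁ p₂ hp1 hp2
  have h2 := rc_translate (C2.sq m) (κ.1 * m, κ.2 * m) b (gd fun v => (p₁ * v.1 + p₂ * v.2) / m) Real.exp
  have hcell : Rc.mk ((C2.sq m).o + (κ.1 * (m : ℤ), κ.2 * (m : ℤ))) (C2.sq m).p (C2.sq m).q = cell m κ := by
    unfold C2.sq cell
    simp
  rw [hcell] at h2
  have hfun : (fun e : Bond => gd (fun v : ℤ × ℤ => (p₁ * v.1 + p₂ * v.2) / m) (e.1 - (κ.1 * (m : ℤ), κ.2 * (m : ℤ)), e.2))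
      = gd fun v : ℤ × ℤ => (p₁ * v.1 + p₂ * v.2) / m := by
    funext e
    unfold gd Bond.snd
    split_ifs <;> simp only [Prod.fst_sub, Prod.snd_sub] <;> push_cast <;> ring
  rw [hfun] at h2
  have hflow : (fun e : ((cell m κ).sys b).E => w (domBond (D := (cell m κ).set) (cut := ∅) e))
      = fun e => 2 * Real.pi * gd (fun v : ℤ × ℤ => (p₁ * v.1 + p₂ * v.2) / m) (domBond (D := (cell m κ).set) (cut := ∅) e) := by
    funext e
    exact hw _ (Subtype.property (p := fun e => e ∈ domBonds (cell m κ).set ∅) e)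
  rw [hflow]
  have h3 : ((cell m κ).sys b).E0 (fun z => Real.exp (flowS ((cell m κ).sys b)
      (fun e => 2 * Real.pi * gd (fun v : ℤ × ℤ => (p₁ * v.1 + p₂ * v.2) / m) (domBond (D := (cell m κ).set) (cut := ∅) e)) z))
      = ((C2.sq m).sys b).E0 fun z => Real.exp ((C2.sq m).gradX b (fun v => (p₁ * v.1 + p₂ * v.2) / m) z) := h2
  refine (h3.le.trans h1).trans ?_
  have h4 : 0 ≤ aCoef b m ^ ((1 : ℝ) / 4) := Real.rpow_nonneg (aCoef_nonneg b hb m) _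
  have := mul_le_mul_of_nonneg_right (le_max_left C 0) h4
  linarith

/-! ## 4. the bonds outside the good cells -/

/-- the dual bonds of the scale `m = 2^j` which may carry a tilt: both faces in the box `[-2ρ-1, 2ρ]²`. -/
def annB (G m : ℕ) : Finset Bond :=
  ((Finset.Icc (-(2 * G * m : ℤ) - 1) (2 * G * m) ×ˢ Finset.Icc (-(2 * G * m : ℤ) - 1) (2 * G * m)) ×ˢ (Finset.univ : Finset Bool)).filter
    fun e => rot (ramp (G * m)) e ≠ 0

/-- the bad bonds of a scale: they carry a tilt and lie in no good cell of the scale. -/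
def badB (G m : ℕ) : Finset Bond := (annB G m).filter fun e => ∀ κ ∈ goodIdx G, e ∉ (cell m κ).bd

/-- first end of the spin bond crossed by the dual bond `e`. -/
def spA (e : Bond) : ℤ × ℤ := if e.2 then (e.1.1 + 1, e.1.2) else (e.1.1, e.1.2 + 1)

/-- second end of the spin bond crossed by the dual bond `e`. -/
def spB (e : Bond) : ℤ × ℤ := (e.1.1 + 1, e.1.2 + 1)

theorem rot_eq_sp (f : ℤ × ℤ → ℝ) (e : Bond) : rot f e = (if e.2 then 1 else -1) * (f (spB e) - f (spA e)) := by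
  unfold rot spA spB
  split_ifs <;> ring

theorem sp_adj (e : Bond) : latAdj (spA e) (spB e) := by
  unfold latAdj spA spB
  split_ifs <;> simp

theorem latNorm_adj_nat (u u' : ℤ × ℤ) (h : latAdj u u') : latNorm u' ≤ latNorm u + 1 ∧ latNorm u ≤ latNorm u' + 1 := by
  unfold latAdj at h
  unfold latNorm
  omega

/-- two neighbours with different values of the ramp lie in the closed annulus. -/
theorem ramp_ne_mem (ρ : ℕ) (u u' : ℤ × ℤ) (h : latAdj u u') (hne : ramp ρ u' ≠ ramp ρ u) :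
    ρ ≤ latNorm u ∧ latNorm u ≤ 2 * ρ ∧ ρ ≤ latNorm u' ∧ latNorm u' ≤ 2 * ρ := by
  obtain ⟨h1, h2⟩ := latNorm_adj_nat u u' h
  rcases Nat.eq_zero_or_pos ρ with h0 | h0
  · exfalso; apply hne; subst h0; simp [ramp]
  by_contra hcon
  apply hne
  by_cases ha : latNorm u ≤ ρ ∧ latNorm u' ≤ ρ
  · rw [ramp_of_le ρ u ha.1, ramp_of_le ρ u' ha.2]
  · by_cases hb : 2 * ρ ≤ latNorm u ∧ 2 * ρ ≤ latNorm u'
    · rw [ramp_of_ge ρ h0 u hb.1, ramp_of_ge ρ h0 u' hb.2]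
    · exfalso; omega

theorem rot_ramp_ne (ρ : ℕ) (e : Bond) (h : rot (ramp ρ) e ≠ 0) : ramp ρ (spB e) ≠ ramp ρ (spA e) := by
  intro heq
  apply h
  rw [rot_eq_sp, heq, sub_self, mul_zero]

/-- L-MASS-T5: a bond with `rot (ramp ρ) e ≠ 0` crosses a spin bond with both ends in `ρ ≤ |z|_∞ ≤ 2ρ`; in particular it belongs to `annB`. -/
theorem rot_ramp_support (G m : ℕ) (e : Bond) (h : rot (ramp (G * m)) e ≠ 0) : e ∈ annB G m := by
  obtain ⟨h1, h2, h3, h4⟩ := ramp_ne_mem _ _ _ (sp_adj e) (rot_ramp_ne _ e h)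
  refine Finset.mem_filter.2 ⟨?_, h⟩
  simp only [Finset.mem_product, Finset.mem_Icc, Finset.mem_univ, and_true]
  have h4' : ((latNorm (spB e) : ℕ) : ℤ) ≤ 2 * (G * m) := by exact_mod_cast h4
  unfold latNorm spB at h4'
  simp only at h4'
  have e1 : (2 * (G : ℤ) * m) = 2 * (G * m) := by ring
  rw [e1]
  omega

/-- L-MASS-T5: `|rot (ramp ρ) e| ≤ 1/ρ` (`ramp_lip`). -/
theorem rot_ramp_le (ρ : ℕ) (e : Bond) : |rot (ramp ρ) e| ≤ 1 / ρ := by
  rw [rot_eq_sp, abs_mul]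
  have : |(if e.2 then (1 : ℝ) else -1)| = 1 := by split_ifs <;> simp
  rw [this, one_mul]
  exact ramp_lip ρ _ _ (sp_adj e)

/-- L-MASS-T5: at most one scale tilts a given bond. -/
theorem rot_ramp_unique (G : ℕ) (hG : 1 ≤ G) (j j' : ℕ) (hjj : j ≠ j') (e : Bond) (h : rot (ramp (G * 2 ^ j)) e ≠ 0) :
    rot (ramp (G * 2 ^ j')) e = 0 := by
  obtain ⟨h1, h2, h3, h4⟩ := ramp_ne_mem _ _ _ (sp_adj e) (rot_ramp_ne _ e h)
  rw [rot_eq_sp]
  rcases Nat.lt_or_gt_of_ne hjj with hlt | hlt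
  · -- `j < j'`
    have hp : 2 * (G * 2 ^ j) ≤ G * 2 ^ j' := by
      have : 2 ^ (j + 1) ≤ 2 ^ j' := Nat.pow_le_pow_right (by norm_num) hlt
      calc 2 * (G * 2 ^ j) = G * 2 ^ (j + 1) := by ring
        _ ≤ G * 2 ^ j' := Nat.mul_le_mul_left _ this
    rw [ramp_of_le _ _ (h4.trans hp), ramp_of_le _ _ (h2.trans hp), sub_self, mul_zero]
  · have hp : 2 * (G * 2 ^ j') ≤ G * 2 ^ j := by
      have : 2 ^ (j' + 1) ≤ 2 ^ j := Nat.pow_le_pow_right (by norm_num) hlt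
      calc 2 * (G * 2 ^ j') = G * 2 ^ (j' + 1) := by ring
        _ ≤ G * 2 ^ j := Nat.mul_le_mul_left _ this
    have hpos : 0 < G * 2 ^ j' := by positivity
    rw [ramp_of_ge _ hpos _ (hp.trans h3), ramp_of_ge _ hpos _ (hp.trans h1), sub_self, mul_zero]

/-- the spin bond crossed by a bond of a cell lies in the closed spin square of the cell. -/
theorem sp_mem_cell (m : ℕ) (κ : ℤ × ℤ) (e : Bond) (he : e ∈ (cell m κ).bd) :
    (κ.1 * m ≤ (spA e).1 ∧ (spA e).1 ≤ κ.1 * m + m ∧ κ.2 * m ≤ (spA e).2 ∧ (spA e).2 ≤ κ.2 * m + m) ∧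
    (κ.1 * m ≤ (spB e).1 ∧ (spB e).1 ≤ κ.1 * m + m ∧ κ.2 * m ≤ (spB e).2 ∧ (spB e).2 ≤ κ.2 * m + m) := by
  have h1 := (mem_cell_set m κ _).1 (domBonds_fst he)
  have h2 := (mem_cell_set m κ _).1 (domBonds_snd he)
  unfold Bond.snd at h2
  unfold spA spB
  split_ifs at h2 ⊢ <;> simp only at h2 ⊢ <;> omega

/-- a coordinate of a point of the closed spin square of a cell. -/
theorem abs_cell (m : ℕ) (a t : ℤ) (h1 : a * m ≤ t) (h2 : t ≤ a * m + m) : cidx a * m ≤ |t| ∧ |t| ≤ (cidx a + 1) * m := by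
  have hm : (0 : ℤ) ≤ m := Int.natCast_nonneg m
  unfold cidx
  rcases le_or_gt 0 a with ha | ha
  · have h3 : 0 ≤ a * m := mul_nonneg ha hm
    rw [max_eq_left (by omega : -a - 1 ≤ a), abs_of_nonneg (by omega), add_mul, one_mul]
    exact ⟨h1, h2⟩
  · have h3 : (a + 1) * m ≤ 0 := mul_nonpos_of_nonpos_of_nonneg (by omega) hm
    rw [add_mul, one_mul] at h3
    rw [max_eq_right (by omega : a ≤ -a - 1), abs_of_nonpos (by omega)]
    have e1 : (-a - 1) * (m : ℤ) = -(a * m) - m := by ring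
    have e2 : (-a - 1 + 1) * (m : ℤ) = -(a * m) := by ring
    rw [e1, e2]
    constructor <;> omega

theorem latNorm_eq_abs (z : ℤ × ℤ) : (latNorm z : ℤ) = max |z.1| |z.2| := by
  rw [Int.abs_eq_natAbs, Int.abs_eq_natAbs]
  unfold latNorm
  omega

/-- the horizontal seam bonds. -/
def seamH (G m : ℕ) : Finset Bond :=
  (Finset.Icc (-(2 * G : ℤ)) (2 * G) ×ˢ Finset.Icc (-(2 * G * m : ℤ) - 1) (2 * G * m)).image fun p => ((p.1 * m - 1, p.2), true)

/-- the vertical seam bonds. -/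
def seamV (G m : ℕ) : Finset Bond :=
  (Finset.Icc (-(2 * G : ℤ)) (2 * G) ×ˢ Finset.Icc (-(2 * G * m : ℤ) - 1) (2 * G * m)).image fun p => ((p.2, p.1 * m - 1), false)

/-- the bonds based in the diagonal cells. -/
def diagB (G m : ℕ) : Finset Bond :=
  ((Finset.Ico (G : ℤ) (2 * G) ×ˢ (Finset.univ : Finset (Bool × Bool))) ×ˢ ((Finset.range m ×ˢ Finset.range m) ×ˢ (Finset.univ : Finset Bool))).image
    fun p => (((if p.1.2.1 then p.1.1 else -p.1.1 - 1) * m + (p.2.1.1 : ℤ), (if p.1.2.2 then p.1.1 else -p.1.1 - 1) * m + (p.2.1.2 : ℤ)), p.2.2)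

theorem seam_card (G m : ℕ) : (Finset.Icc (-(2 * G : ℤ)) (2 * G) ×ˢ Finset.Icc (-(2 * G * m : ℤ) - 1) (2 * G * m)).card = (4 * G + 1) * (4 * G * m + 2) := by
  rw [Finset.card_product, Int.card_Icc, Int.card_Icc]
  congr 1
  · omega
  · have : (2 * (G : ℤ) * m + 1 - (-(2 * (G : ℤ) * m) - 1)) = ((4 * G * m + 2 : ℕ) : ℤ) := by push_cast; ring
    rw [this, Int.toNat_natCast]

theorem badB_subset (G m : ℕ) (hm : 1 ≤ m) : badB G m ⊆ diagB G m ∪ (seamH G m ∪ seamV G m) := by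
  intro e he
  obtain ⟨hann, hbad⟩ := Finset.mem_filter.1 he
  obtain ⟨hbox, hrot⟩ := Finset.mem_filter.1 hann
  simp only [Finset.mem_product, Finset.mem_Icc, Finset.mem_univ, and_true] at hbox
  obtain ⟨⟨bx1, bx2⟩, ⟨by1, by2⟩⟩ := hbox
  have hne := rot_ramp_ne _ e hrot
  obtain ⟨lA, uA, lB, uB⟩ := ramp_ne_mem _ _ _ (sp_adj e) hne
  have hNne : latNorm (spB e) ≠ latNorm (spA e) := by
    intro h
    apply hne
    rw [ramp_of_mem _ _ lA uA, ramp_of_mem _ _ lB uB, h]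
  have hm0 : (0 : ℤ) < m := by exact_mod_cast hm
  have lA' : (G : ℤ) * m ≤ latNorm (spA e) := by exact_mod_cast lA
  have uA' : (latNorm (spA e) : ℤ) ≤ 2 * ((G : ℤ) * m) := by exact_mod_cast uA
  have lB' : (G : ℤ) * m ≤ latNorm (spB e) := by exact_mod_cast lB
  have uB' : (latNorm (spB e) : ℤ) ≤ 2 * ((G : ℤ) * m) := by exact_mod_cast uB
  have hNne' : (latNorm (spB e) : ℤ) ≠ latNorm (spA e) := by exact_mod_cast hNne
  -- the cell of the base face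
  set a : ℤ := e.1.1 / m with ha
  set c : ℤ := e.1.2 / m with hc
  have a1 : a * m ≤ e.1.1 := Int.ediv_mul_le _ hm0.ne'
  have a2 : e.1.1 < a * m + m := by
    have := Int.lt_ediv_add_one_mul_self e.1.1 hm0
    rw [add_mul, one_mul] at this
    exact this
  have c1 : c * m ≤ e.1.2 := Int.ediv_mul_le _ hm0.ne'
  have c2 : e.1.2 < c * m + m := by
    have := Int.lt_ediv_add_one_mul_self e.1.2 hm0
    rw [add_mul, one_mul] at this
    exact this
  have hbase : e.1 ∈ (cell m (a, c)).set := (mem_cell_set m (a, c) e.1).2 ⟨a1, a2, c1, c2⟩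
  have e2G : 2 * (G : ℤ) * m = 2 * ((G : ℤ) * m) := by ring
  by_cases hsnd : e.snd ∈ (cell m (a, c)).set
  · -- inside one cell: a diagonal cell
    refine Finset.mem_union_left _ ?_
    have hbd : e ∈ (cell m (a, c)).bd := by
      unfold Rc.bd
      simp only [domBonds, Finset.mem_filter, Finset.mem_product, Finset.mem_univ, and_true, Set.mem_empty_iff_false, not_false_eq_true]
      exact ⟨hbase, hsnd⟩
    obtain ⟨⟨p1, p2, p3, p4⟩, ⟨q1, q2, q3, q4⟩⟩ := sp_mem_cell m (a, c) e hbd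
    simp only at p1 p2 p3 p4 q1 q2 q3 q4
    have A1 := abs_cell m a _ p1 p2
    have A2 := abs_cell m c _ p3 p4
    have B1 := abs_cell m a _ q1 q2
    have B2 := abs_cell m c _ q3 q4
    have nA := latNorm_eq_abs (spA e)
    have nB := latNorm_eq_abs (spB e)
    have mono : ∀ x y : ℤ, x ≤ y → x * m ≤ y * m := fun x y h => mul_le_mul_of_nonneg_right h hm0.le
    -- ring index in `[G, 2G)`
    have hlow : (G : ℤ) ≤ max (cidx a) (cidx c) := by
      by_contra hcon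
      push Not at hcon
      have k1 := mono (cidx a + 1) G (by have := le_max_left (cidx a) (cidx c); omega)
      have k2 := mono (cidx c + 1) G (by have := le_max_right (cidx a) (cidx c); omega)
      omega
    have hup : max (cidx a) (cidx c) < 2 * G := by
      by_contra hcon
      push Not at hcon
      rcases le_max_iff.1 hcon with h | h
      · have k1 := mono (2 * G) (cidx a) h
        rw [e2G] at k1
        omega
      · have k1 := mono (2 * G) (cidx c) h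
        rw [e2G] at k1
        omega
    have hdiag : cidx a = cidx c := by
      by_contra hcon
      refine hbad (a, c) ((mem_goodIdx G (a, c)).2 ⟨?_, ?_, hlow, hcon⟩) hbd
      · have := le_max_left (cidx a) (cidx c)
        unfold cidx at this hup
        simp only
        omega
      · have := le_max_right (cidx a) (cidx c)
        unfold cidx at this hup
        simp only
        omega
    rw [← hdiag, max_self] at hlow hup
    refine Finset.mem_image.2 ⟨((cidx a, (decide (0 ≤ a), decide (0 ≤ c))), (((e.1.1 - a * m).toNat, (e.1.2 - c * m).toNat), e.2)), ?_, ?_⟩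
    · simp only [Finset.mem_product, Finset.mem_Ico, Finset.mem_univ, Finset.mem_range, and_true]
      refine ⟨⟨hlow, hup⟩, ?_, ?_⟩ <;> omega
    · have t1 : ((e.1.1 - a * m).toNat : ℤ) = e.1.1 - a * m := Int.toNat_of_nonneg (by omega)
      have t2 : ((e.1.2 - c * m).toNat : ℤ) = e.1.2 - c * m := Int.toNat_of_nonneg (by omega)
      have s1 : (if decide (0 ≤ a) = true then cidx a else -cidx a - 1) = a := by
        unfold cidx
        by_cases h : 0 ≤ a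
        · simp only [h, decide_true, if_true]; omega
        · simp only [h, decide_false, Bool.false_eq_true, if_false]; omega
      have s2 : (if decide (0 ≤ c) = true then cidx a else -cidx a - 1) = c := by
        rw [hdiag]
        unfold cidx
        by_cases h : 0 ≤ c
        · simp only [h, decide_true, if_true]; omega
        · simp only [h, decide_false, Bool.false_eq_true, if_false]; omega
      simp only [s1, s2, t1, t2]
      refine Prod.ext (Prod.ext ?_ ?_) rfl <;> simp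
  · -- a seam bond
    refine Finset.mem_union_right _ ?_
    have hs : ¬ (a * m ≤ e.snd.1 ∧ e.snd.1 < a * m + m ∧ c * m ≤ e.snd.2 ∧ e.snd.2 < c * m + m) :=
      fun h => hsnd ((mem_cell_set m (a, c) e.snd).2 h)
    have nB := latNorm_eq_abs (spB e)
    have bound : ∀ t : ℤ, |t * m| ≤ 2 * ((G : ℤ) * m) → -(2 * (G : ℤ)) ≤ t ∧ t ≤ 2 * G := by
      intro t ht
      rw [abs_le] at ht
      constructor
      · have : (-(2 * (G : ℤ))) * m ≤ t * m := by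
          have e' : (-(2 * (G : ℤ))) * m = -(2 * ((G : ℤ) * m)) := by ring
          rw [e']; exact ht.1
        exact le_of_mul_le_mul_right this hm0
      · have : t * m ≤ (2 * (G : ℤ)) * m := by rw [e2G]; exact ht.2
        exact le_of_mul_le_mul_right this hm0
    by_cases hd : e.2 = true
    · refine Finset.mem_union_left _ ?_
      unfold Bond.snd at hs
      simp only [hd, if_true] at hs
      have hx : e.1.1 + 1 = (a + 1) * m := by rw [add_mul, one_mul]; omega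
      have hB : |(a + 1) * (m : ℤ)| ≤ 2 * ((G : ℤ) * m) := by
        rw [← hx]
        have : |(spB e).1| ≤ (latNorm (spB e) : ℤ) := by rw [nB]; exact le_max_left _ _
        unfold spB at this
        simp only at this
        unfold spB at uB'
        omega
      obtain ⟨g1, g2⟩ := bound _ hB
      refine Finset.mem_image.2 ⟨(a + 1, e.1.2), ?_, ?_⟩
      · simp only [Finset.mem_product, Finset.mem_Icc]
        exact ⟨⟨g1, g2⟩, by1, by2⟩
      · refine Prod.ext (Prod.ext ?_ rfl) hd.symm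
        simp only
        omega
    · refine Finset.mem_union_right _ ?_
      have hd' : e.2 = false := by simpa using hd
      unfold Bond.snd at hs
      simp only [hd', Bool.false_eq_true, if_false] at hs
      have hx : e.1.2 + 1 = (c + 1) * m := by rw [add_mul, one_mul]; omega
      have hB : |(c + 1) * (m : ℤ)| ≤ 2 * ((G : ℤ) * m) := by
        rw [← hx]
        have : |(spB e).2| ≤ (latNorm (spB e) : ℤ) := by rw [nB]; exact le_max_right _ _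
        unfold spB at this
        simp only at this
        unfold spB at uB'
        omega
      obtain ⟨g1, g2⟩ := bound _ hB
      refine Finset.mem_image.2 ⟨(c + 1, e.1.1), ?_, ?_⟩
      · simp only [Finset.mem_product, Finset.mem_Icc]
        exact ⟨⟨g1, g2⟩, bx1, bx2⟩
      · refine Prod.ext (Prod.ext rfl ?_) hd'.symm
        simp only
        omega

/-- L-MASS-T6: counting.  A bad bond either joins two different cells of the grid of side `m` (seam: `≤ 2 (4G+1)(4Gm+2)` bonds) or lies in a cell with `G ≤ cidx κ.1 = cidx κ.2 < 2G` (`4G` cells, `≤ 2m²` bonds each)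
(a bond inside a cell of ring index `< G` or `≥ 2G` carries no tilt). -/
theorem badB_card (G m : ℕ) (hG : 1 ≤ G) (hm : 1 ≤ m) : ((badB G m).card : ℝ) ≤ 8 * G * (m : ℝ) ^ 2 + 60 * (G : ℝ) ^ 2 * m := by
  have h1 : (badB G m).card ≤ (G * 4) * ((m * m) * 2) + ((4 * G + 1) * (4 * G * m + 2) + (4 * G + 1) * (4 * G * m + 2)) := by
    refine (Finset.card_le_card (badB_subset G m hm)).trans ?_
    refine (Finset.card_union_le _ _).trans (add_le_add ?_ ((Finset.card_union_le _ _).trans (add_le_add ?_ ?_)))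
    · refine Finset.card_image_le.trans (le_of_eq ?_)
      rw [Finset.card_product, Finset.card_product, Finset.card_product, Finset.card_product, Int.card_Ico, Finset.card_range]
      have : (2 * (G : ℤ) - G).toNat = G := by omega
      rw [this]
      simp
    · exact Finset.card_image_le.trans (seam_card G m).le
    · exact Finset.card_image_le.trans (seam_card G m).le
  have h2 : ((badB G m).card : ℝ) ≤ (((G * 4) * ((m * m) * 2) + ((4 * G + 1) * (4 * G * m + 2) + (4 * G + 1) * (4 * G * m + 2)) : ℕ) : ℝ) := by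
    exact_mod_cast h1
  refine h2.trans ?_
  push_cast
  have hG' : (1 : ℝ) ≤ G := by exact_mod_cast hG
  have hm' : (1 : ℝ) ≤ m := by exact_mod_cast hm
  have hGm : (1 : ℝ) ≤ (G : ℝ) * m := by nlinarith
  have k1 : 4 * (G : ℝ) + 1 ≤ 5 * G := by linarith
  have k2 : 4 * (G : ℝ) * m + 2 ≤ 6 * (G * m) := by nlinarith
  have k3 : (4 * (G : ℝ) + 1) * (4 * (G : ℝ) * m + 2) ≤ 5 * G * (6 * (G * m)) :=
    mul_le_mul k1 k2 (by positivity) (by positivity)
  nlinarith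

theorem cosh_sub_one_le_sq {x : ℝ} (hx : |x| ≤ 1) : Real.cosh x - 1 ≤ x ^ 2 := by
  have h1 := Real.cosh_le_exp_half_sq x
  have hx2 : x ^ 2 ≤ 1 := by
    have := sq_le_sq' (neg_le_of_abs_le hx) (le_of_abs_le hx)
    simpa using this
  have h2 : Real.exp (x ^ 2 / 2) ≤ 1 / (1 - x ^ 2 / 2) :=
    Real.exp_bound_div_one_sub_of_interval (by positivity) (by linarith)
  have h3 : 1 / (1 - x ^ 2 / 2) ≤ 1 + x ^ 2 := by
    rw [div_le_iff₀ (by linarith)]
    nlinarith [sq_nonneg x]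
  linarith

theorem rot_psi_eq (lam : ℝ) (G j₁ j₂ : ℕ) (e : Bond) :
    rot (psi lam G j₁ j₂) e = lam * ∑ j ∈ Finset.Ico j₁ j₂, rot (ramp (G * 2 ^ j)) e := by
  unfold rot psi
  split_ifs
  · rw [← mul_sub, ← Finset.sum_sub_distrib]
  · rw [← mul_sub, ← Finset.sum_sub_distrib, Finset.sum_neg_distrib, mul_neg]

/-- L-MASS-T7: the reference cost of all bonds outside the good cells.
(`rot` is additive: `rot psi e = lam ∑_j rot (ramp (G 2^j)) e`, at most one term; `cosh x - 1 ≤ x²` for `|x| ≤ 1`; `hsm`: `lam ≤ G 2^{j₁}`.) -/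
theorem leftover_le (b lam : ℝ) (hb : 0 ≤ b) (hlam : 0 ≤ lam) (G j₁ j₂ R : ℕ) (hG : 1 ≤ G) (hj : j₁ ≤ j₂) (hsm : lam ≤ G * 2 ^ j₁) :
    ∑ e ∈ (dualBd R).filter (fun e => ∀ i : cellIdx G j₁ j₂, e ∉ (cellQ G j₁ j₂ i).bd), b * (Real.cosh (rot (psi lam G j₁ j₂) e) - 1)
      ≤ ((j₂ : ℝ) - j₁) * (b * lam ^ 2 * (8 / G + 60 / 2 ^ j₁)) := by
  have hG0 : (0 : ℝ) < G := by exact_mod_cast hG
  -- pointwise bound
  have hpt : ∀ e ∈ (dualBd R).filter (fun e => ∀ i : cellIdx G j₁ j₂, e ∉ (cellQ G j₁ j₂ i).bd),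
      b * (Real.cosh (rot (psi lam G j₁ j₂) e) - 1) ≤
        ∑ j ∈ Finset.Ico j₁ j₂, if e ∈ badB G (2 ^ j) then b * (lam / ((G : ℝ) * 2 ^ j)) ^ 2 else 0 := by
    intro e he
    have hnn : ∀ j ∈ Finset.Ico j₁ j₂, (0 : ℝ) ≤ if e ∈ badB G (2 ^ j) then b * (lam / ((G : ℝ) * 2 ^ j)) ^ 2 else 0 := by
      intro j _
      split_ifs
      · positivity
      · exact le_rfl
    by_cases hall : ∀ j ∈ Finset.Ico j₁ j₂, rot (ramp (G * 2 ^ j)) e = 0
    · rw [rot_psi_eq, Finset.sum_eq_zero hall]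
      simp only [mul_zero, Real.cosh_zero, sub_self]
      exact Finset.sum_nonneg hnn
    · push Not at hall
      obtain ⟨j0, hj0, hne⟩ := hall
      have hsum : ∑ j ∈ Finset.Ico j₁ j₂, rot (ramp (G * 2 ^ j)) e = rot (ramp (G * 2 ^ j0)) e :=
        Finset.sum_eq_single_of_mem j0 hj0 fun j _ hjne => rot_ramp_unique G hG j0 j (Ne.symm hjne) e hne
      have hbad : e ∈ badB G (2 ^ j0) := by
        refine Finset.mem_filter.2 ⟨rot_ramp_support G (2 ^ j0) e hne, fun κ hκ => ?_⟩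
        exact (Finset.mem_filter.1 he).2 ⟨(j0, κ), Finset.mem_product.2 ⟨hj0, hκ⟩⟩
      have hρ : (0 : ℝ) < (G : ℝ) * 2 ^ j0 := by positivity
      have hle := rot_ramp_le (G * 2 ^ j0) e
      have hcast : ((G * 2 ^ j0 : ℕ) : ℝ) = (G : ℝ) * 2 ^ j0 := by push_cast; ring
      rw [hcast] at hle
      have hx : |lam * rot (ramp (G * 2 ^ j0)) e| ≤ lam / ((G : ℝ) * 2 ^ j0) := by
        rw [abs_mul, abs_of_nonneg hlam, div_eq_mul_one_div]
        exact mul_le_mul_of_nonneg_left hle hlam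
      have hx1 : lam / ((G : ℝ) * 2 ^ j0) ≤ 1 := by
        rw [div_le_one hρ]
        refine hsm.trans ?_
        have : (2 : ℝ) ^ j₁ ≤ 2 ^ j0 := pow_le_pow_right₀ (by norm_num) (Finset.mem_Ico.1 hj0).1
        exact mul_le_mul_of_nonneg_left this hG0.le
      rw [rot_psi_eq, hsum]
      have h1 := cosh_sub_one_le_sq (hx.trans hx1)
      have h2 : (lam * rot (ramp (G * 2 ^ j0)) e) ^ 2 ≤ (lam / ((G : ℝ) * 2 ^ j0)) ^ 2 := by
        rw [← sq_abs]
        exact pow_le_pow_left₀ (abs_nonneg _) hx 2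
      have h3 : b * (Real.cosh (lam * rot (ramp (G * 2 ^ j0)) e) - 1) ≤ b * (lam / ((G : ℝ) * 2 ^ j0)) ^ 2 :=
        mul_le_mul_of_nonneg_left (h1.trans h2) hb
      refine h3.trans ?_
      have h4 := Finset.single_le_sum hnn hj0
      rwa [if_pos hbad] at h4
  refine (Finset.sum_le_sum hpt).trans ?_
  rw [Finset.sum_comm]
  -- scale by scale
  have hsc : ∀ j ∈ Finset.Ico j₁ j₂,
      (∑ e ∈ (dualBd R).filter (fun e => ∀ i : cellIdx G j₁ j₂, e ∉ (cellQ G j₁ j₂ i).bd),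
        if e ∈ badB G (2 ^ j) then b * (lam / ((G : ℝ) * 2 ^ j)) ^ 2 else 0) ≤ b * lam ^ 2 * (8 / G + 60 / 2 ^ j₁) := by
    intro j hjm
    have hv : 0 ≤ b * (lam / ((G : ℝ) * 2 ^ j)) ^ 2 := by positivity
    rw [← Finset.sum_filter, Finset.sum_const, nsmul_eq_mul]
    have hc1 : ((Finset.filter (fun e => e ∈ badB G (2 ^ j))
        ((dualBd R).filter (fun e => ∀ i : cellIdx G j₁ j₂, e ∉ (cellQ G j₁ j₂ i).bd))).card : ℝ) ≤ ((badB G (2 ^ j)).card : ℝ) := by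
      exact_mod_cast Finset.card_le_card fun e he => (Finset.mem_filter.1 he).2
    have hc2 := badB_card G (2 ^ j) hG Nat.one_le_two_pow
    have hp : (0 : ℝ) < (2 : ℝ) ^ j := by positivity
    have hp1 : (0 : ℝ) < (2 : ℝ) ^ j₁ := by positivity
    push_cast at hc2
    calc _ ≤ (8 * (G : ℝ) * ((2 : ℝ) ^ j) ^ 2 + 60 * (G : ℝ) ^ 2 * 2 ^ j) * (b * (lam / ((G : ℝ) * 2 ^ j)) ^ 2) :=
          mul_le_mul_of_nonneg_right (hc1.trans hc2) hv
      _ = b * lam ^ 2 * (8 / G + 60 / 2 ^ j) := by field_simp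
      _ ≤ b * lam ^ 2 * (8 / G + 60 / 2 ^ j₁) := by
          have : (60 : ℝ) / 2 ^ j ≤ 60 / 2 ^ j₁ :=
            div_le_div_of_nonneg_left (by norm_num) hp1 (pow_le_pow_right₀ (by norm_num) (Finset.mem_Ico.1 hjm).1)
          have h0 : 0 ≤ b * lam ^ 2 := by positivity
          exact mul_le_mul_of_nonneg_left (by linarith) h0
  refine (Finset.sum_le_card_nsmul _ _ _ hsc).trans ?_
  rw [nsmul_eq_mul, Nat.card_Ico, Nat.cast_sub hj]

/-- on the closed spin square of a good cell the sup norm is one of `± z.1`, `± z.2`, with values in `[ρ, 2ρ]`. -/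
theorem good_sector (G m : ℕ) (κ : ℤ × ℤ) (hκ : κ ∈ goodIdx G) : ∃ s₁ s₂ : ℤ, |s₁| ≤ 1 ∧ |s₂| ≤ 1 ∧
    ∀ z : ℤ × ℤ, κ.1 * m ≤ z.1 → z.1 ≤ κ.1 * m + m → κ.2 * m ≤ z.2 → z.2 ≤ κ.2 * m + m →
      (latNorm z : ℤ) = s₁ * z.1 + s₂ * z.2 ∧ (G : ℤ) * m ≤ latNorm z ∧ (latNorm z : ℤ) ≤ 2 * ((G : ℤ) * m) := by
  obtain ⟨⟨g1, g2⟩, ⟨g3, g4⟩, g5, g6⟩ := (mem_goodIdx G κ).1 hκ
  have hm : (0 : ℤ) ≤ m := Int.natCast_nonneg m
  have mono : ∀ x y : ℤ, x ≤ y → x * m ≤ y * m := fun x y h => mul_le_mul_of_nonneg_right h hm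
  obtain ⟨a, c⟩ := κ
  simp only at g1 g2 g3 g4 g5 g6 ⊢
  unfold cidx at g5 g6
  have u1 := mono (-(2 * G)) a g1
  have u2 := mono (a + 1) (2 * G) (by omega)
  have u3 := mono (-(2 * G)) c g3
  have u4 := mono (c + 1) (2 * G) (by omega)
  have e1 : -(2 * (G : ℤ)) * m = -(2 * ((G : ℤ) * m)) := by ring
  have e2 : (2 * (G : ℤ)) * m = 2 * ((G : ℤ) * m) := by ring
  have e3 : (a + 1) * (m : ℤ) = a * m + m := by ring
  have e4 : (c + 1) * (m : ℤ) = c * m + m := by ring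
  rw [e1] at u1 u3
  rw [e2] at u2 u4
  rw [e3] at u2
  rw [e4] at u4
  rcases lt_or_gt_of_ne g6 with hlt | hlt
  · -- `cidx a < cidx c`: upper or lower sector
    rcases le_or_gt 0 c with hc | hc
    · -- `c ≥ G`, `-c ≤ a`, `a + 1 ≤ c`
      have v1 := mono G c (by omega)
      have v2 := mono (-c) a (by omega)
      have v3 := mono (a + 1) c (by omega)
      have e5 : -c * (m : ℤ) = -(c * m) := by ring
      rw [e5] at v2
      rw [e3] at v3
      refine ⟨0, 1, by simp, by simp, fun z z1 z2 z3 z4 => ?_⟩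
      unfold latNorm
      omega
    · have v1 := mono (c + 1) (-G) (by omega)
      have v2 := mono (c + 1) a (by omega)
      have v3 := mono (a + 1) (-(c + 1)) (by omega)
      have e5 : -(G : ℤ) * (m : ℤ) = -((G : ℤ) * m) := by ring
      have e6 : -(c + 1) * (m : ℤ) = -(c * m + m) := by ring
      rw [e4, e5] at v1
      rw [e4] at v2
      rw [e3, e6] at v3
      refine ⟨0, -1, by simp, by simp, fun z z1 z2 z3 z4 => ?_⟩
      unfold latNorm
      omega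
  · rcases le_or_gt 0 a with ha | ha
    · have v1 := mono G a (by omega)
      have v2 := mono (-a) c (by omega)
      have v3 := mono (c + 1) a (by omega)
      have e5 : -a * (m : ℤ) = -(a * m) := by ring
      rw [e5] at v2
      rw [e4] at v3
      refine ⟨1, 0, by simp, by simp, fun z z1 z2 z3 z4 => ?_⟩
      unfold latNorm
      omega
    · have v1 := mono (a + 1) (-G) (by omega)
      have v2 := mono (a + 1) c (by omega)
      have v3 := mono (c + 1) (-(a + 1)) (by omega)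
      have e5 : -(G : ℤ) * (m : ℤ) = -((G : ℤ) * m) := by ring
      have e6 : -(a + 1) * (m : ℤ) = -(a * m + m) := by ring
      rw [e3, e5] at v1
      rw [e3] at v2
      rw [e4, e6] at v3
      refine ⟨-1, 0, by simp, by simp, fun z z1 z2 z3 z4 => ?_⟩
      unfold latNorm
      omega

/-- a bond whose spin bond lies in the closed annulus of the scale `j` is not tilted by the other scales. -/
theorem rot_ramp_other (G : ℕ) (hG : 1 ≤ G) (j j' : ℕ) (hjj : j ≠ j') (e : Bond)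
    (h1 : G * 2 ^ j ≤ latNorm (spA e)) (h2 : latNorm (spA e) ≤ 2 * (G * 2 ^ j))
    (h3 : G * 2 ^ j ≤ latNorm (spB e)) (h4 : latNorm (spB e) ≤ 2 * (G * 2 ^ j)) : rot (ramp (G * 2 ^ j')) e = 0 := by
  rw [rot_eq_sp]
  rcases Nat.lt_or_gt_of_ne hjj with hlt | hlt
  · have hp : 2 * (G * 2 ^ j) ≤ G * 2 ^ j' := by
      have : 2 ^ (j + 1) ≤ 2 ^ j' := Nat.pow_le_pow_right (by norm_num) hlt
      calc 2 * (G * 2 ^ j) = G * 2 ^ (j + 1) := by ring
        _ ≤ G * 2 ^ j' := Nat.mul_le_mul_left _ this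
    rw [ramp_of_le _ _ (h4.trans hp), ramp_of_le _ _ (h2.trans hp), sub_self, mul_zero]
  · have hp : 2 * (G * 2 ^ j') ≤ G * 2 ^ j := by
      have : 2 ^ (j' + 1) ≤ 2 ^ j := Nat.pow_le_pow_right (by norm_num) hlt
      calc 2 * (G * 2 ^ j') = G * 2 ^ (j' + 1) := by ring
        _ ≤ G * 2 ^ j := Nat.mul_le_mul_left _ this
    have hpos : 0 < G * 2 ^ j' := by positivity
    rw [ramp_of_ge _ hpos _ (hp.trans h3), ramp_of_ge _ hpos _ (hp.trans h1), sub_self, mul_zero]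

/-- L-MASS-T3: on a good cell the rotated gradient of `psi` is the gradient of an affine function with slope `lam/ρ`.
(On the closed spin square of the cell `(j,κ)`: `ramp (G 2^j') = 0` for `j' > j`, `= 1` for `j' < j`; `latNorm z = σ z.1` or `σ z.2` with a fixed sign `σ`; `ramp_of_mem`.) -/
theorem rot_psi_cell (lam : ℝ) (hlam : 0 ≤ lam) (G j₁ j₂ : ℕ) (hG : 1 ≤ G) (i : cellIdx G j₁ j₂) : ∃ p₁ p₂ : ℝ, |p₁| ≤ lam ∧ |p₂| ≤ lam ∧
    ∀ e ∈ (cellQ G j₁ j₂ i).bd, rot (psi lam G j₁ j₂) e = 2 * Real.pi * gd (fun v => (p₁ * v.1 + p₂ * v.2) / (2 ^ i.1.1 : ℕ)) e := by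
  have hi := Finset.mem_product.1 i.2
  obtain ⟨s₁, s₂, hs1, hs2, hsec⟩ := good_sector G (2 ^ i.1.1) i.1.2 hi.2
  have hG0 : (0 : ℝ) < G := by exact_mod_cast hG
  have hG1 : (1 : ℝ) ≤ G := by exact_mod_cast hG
  have hpi : (1 : ℝ) ≤ 2 * Real.pi * G := by nlinarith [Real.pi_gt_three]
  have hbd : ∀ s : ℤ, |s| ≤ 1 → |lam * (s : ℝ) / (2 * Real.pi * G)| ≤ lam := by
    intro s hs
    have hs' : |(s : ℝ)| ≤ 1 := by exact_mod_cast hs
    rw [abs_div, abs_mul, abs_of_nonneg hlam, abs_of_pos (by linarith : 0 < 2 * Real.pi * G), div_le_iff₀ (by linarith)]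
    nlinarith [abs_nonneg (s : ℝ)]
  refine ⟨lam * (s₂ : ℝ) / (2 * Real.pi * G), -(lam * (s₁ : ℝ) / (2 * Real.pi * G)), hbd s₂ hs2, by rw [abs_neg]; exact hbd s₁ hs1, fun e he => ?_⟩
  obtain ⟨⟨a1, a2, a3, a4⟩, ⟨b1, b2, b3, b4⟩⟩ := sp_mem_cell _ _ e he
  obtain ⟨nA, lA, uA⟩ := hsec _ a1 a2 a3 a4
  obtain ⟨nB, lB, uB⟩ := hsec _ b1 b2 b3 b4
  have lA' : G * 2 ^ i.1.1 ≤ latNorm (spA e) := by exact_mod_cast lA
  have uA' : latNorm (spA e) ≤ 2 * (G * 2 ^ i.1.1) := by exact_mod_cast uA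
  have lB' : G * 2 ^ i.1.1 ≤ latNorm (spB e) := by exact_mod_cast lB
  have uB' : latNorm (spB e) ≤ 2 * (G * 2 ^ i.1.1) := by exact_mod_cast uB
  rw [rot_psi_eq, Finset.sum_eq_single_of_mem i.1.1 hi.1 fun j _ hj => rot_ramp_other G hG i.1.1 j (Ne.symm hj) e lA' uA' lB' uB',
    rot_eq_sp, ramp_of_mem _ _ lA' uA', ramp_of_mem _ _ lB' uB']
  have nA' : (latNorm (spA e) : ℝ) = s₁ * ((spA e).1 : ℝ) + s₂ * ((spA e).2 : ℝ) := by exact_mod_cast nA
  have nB' : (latNorm (spB e) : ℝ) = s₁ * ((spB e).1 : ℝ) + s₂ * ((spB e).2 : ℝ) := by exact_mod_cast nB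
  rw [nA', nB']
  have hp : (0 : ℝ) < (2 : ℝ) ^ i.1.1 := by positivity
  have hpi0 : (0 : ℝ) < Real.pi := Real.pi_pos
  unfold gd Bond.snd spA spB
  split_ifs <;> push_cast <;> field_simp <;> ring

/-! ## 5. the result -/

/-- nonnegative integrands have nonnegative centred expectation. -/
theorem lsysE0_nonneg (S : LSys) (hb : ∀ e, 0 ≤ S.b e) (F : S.L → ℝ) (hF : ∀ z, 0 ≤ F z) : 0 ≤ S.E0 F := by
  have hW : ∀ z : S.Amb, 0 ≤ S.W z := fun z =>
    mul_nonneg (Finset.prod_nonneg fun e _ => bes_nonneg _ (hb e) _) (Real.exp_pos _).le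
  unfold LSys.E0 LSys.Ev LSys.wT LSys.Zf
  exact div_nonneg (tsum_nonneg fun z => mul_nonneg (mul_nonneg (hF z) (Real.exp_pos _).le) (hW _))
    (tsum_nonneg fun z => mul_nonneg (Real.exp_pos _).le (hW _))

/-- L-MASS-T8: `spin_tilt` with the data above. -/
theorem tilt_box (β lam : ℝ) (hlam : 0 < lam) : ∃ C : ℝ, 0 ≤ C ∧ ∀ (b : ℝ), 0 < b → b ≤ β → ∀ (G j₁ j₂ : ℕ), 1 ≤ G → j₁ ≤ j₂ → lam ≤ G * 2 ^ j₁ →
    ∀ ε : ℝ, (∀ j, j₁ ≤ j → j < j₂ → aCoef b (2 ^ j) ≤ ε) → ∀ (R : ℕ) (y : ℤ × ℤ), y ∈ xyBox R → G * 2 ^ j₂ ≤ latNorm y →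
    latTwo b (xyBox R) (0, 0) y ≤
      Real.exp (-(((j₂ : ℝ) - j₁) * (lam - 16 * (G : ℝ) ^ 2 * (C * ε ^ ((1 : ℝ) / 4)) - β * lam ^ 2 * (8 / G + 60 / 2 ^ j₁)))) := by
  obtain ⟨C, hC0, hC⟩ := cell_affine β lam
  refine ⟨C, hC0, fun b hb hbβ G j₁ j₂ hG hj hsm ε hε R y hy hyn => ?_⟩
  have hN : (0 : ℝ) ≤ (j₂ : ℝ) - j₁ := by
    have : (j₁ : ℝ) ≤ j₂ := by exact_mod_cast hj
    linarith
  -- `R` is large
  have hyR : latNorm y ≤ R := by
    have h1 := Finset.mem_product.1 hy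
    have h2 := Finset.mem_Icc.1 h1.1
    have h3 := Finset.mem_Icc.1 h1.2
    unfold latNorm
    omega
  have hR : G * 2 ^ j₂ ≤ R := hyn.trans hyR
  have h0 : ((0 : ℤ), (0 : ℤ)) ∈ xyBox R := by
    unfold xyBox
    simp
  have hmain := spin_tilt b hb R (0, 0) y h0 hy (psi lam G j₁ j₂) (cellQ G j₁ j₂)
    (fun i => cellQ_inside G j₁ j₂ R hR i) (fun i i' h => cellQ_disjoint G j₁ j₂ i i' h)
    (fun i => ⟨fun hx => by
        have := (cellQ_inner G j₁ j₂ hG i _ hx).1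
        simp [latNorm] at this,
      fun hx => by
        have := (cellQ_inner G j₁ j₂ hG i _ hx).2
        omega⟩)
  refine hmain.trans ?_
  rw [psi_zero, psi_far lam G j₁ j₂ hG hj y hyn]
  -- the cells
  have hcell : ∀ i : cellIdx G j₁ j₂,
      ((cellQ G j₁ j₂ i).sys b).E0 (fun z => Real.exp (flowS ((cellQ G j₁ j₂ i).sys b)
        (fun e => rot (psi lam G j₁ j₂) (domBond (D := (cellQ G j₁ j₂ i).set) (cut := ∅) e)) z))
        ≤ Real.exp (C * ε ^ ((1 : ℝ) / 4)) := by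
    intro i
    obtain ⟨p₁, p₂, hp1, hp2, hrot⟩ := rot_psi_cell lam hlam.le G j₁ j₂ hG i
    have hi := Finset.mem_product.1 i.2
    have hi1 := Finset.mem_Ico.1 hi.1
    have h1 := hC b hb hbβ (2 ^ i.1.1) Nat.one_le_two_pow i.1.2 p₁ p₂ hp1 hp2 (rot (psi lam G j₁ j₂)) hrot
    refine h1.trans ?_
    have h2 : aCoef b (2 ^ i.1.1) ^ ((1 : ℝ) / 4) ≤ ε ^ ((1 : ℝ) / 4) :=
      Real.rpow_le_rpow (aCoef_nonneg b hb _) (hε _ hi1.1 hi1.2) (by norm_num)
    have h3 : 1 + C * aCoef b (2 ^ i.1.1) ^ ((1 : ℝ) / 4) ≤ 1 + C * ε ^ ((1 : ℝ) / 4) := by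
      have := mul_le_mul_of_nonneg_left h2 hC0
      linarith
    refine h3.trans ?_
    have := Real.add_one_le_exp (C * ε ^ ((1 : ℝ) / 4))
    linarith
  have hprod : (∏ i : cellIdx G j₁ j₂, ((cellQ G j₁ j₂ i).sys b).E0 (fun z => Real.exp (flowS ((cellQ G j₁ j₂ i).sys b)
        (fun e => rot (psi lam G j₁ j₂) (domBond (D := (cellQ G j₁ j₂ i).set) (cut := ∅) e)) z)))
      ≤ Real.exp (((j₂ : ℝ) - j₁) * (16 * (G : ℝ) ^ 2 * (C * ε ^ ((1 : ℝ) / 4)))) := by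
    refine (Finset.prod_le_prod (fun i _ => lsysE0_nonneg _ (fun _ => hb.le) _ fun z => (Real.exp_pos _).le) fun i _ => hcell i).trans ?_
    rw [Finset.prod_const, ← Real.exp_nat_mul]
    refine Real.exp_le_exp.2 ?_
    rcases Nat.eq_or_lt_of_le hj with hjj | hjj
    · -- no scale
      have : (Finset.univ : Finset (cellIdx G j₁ j₂)).card = 0 := by
        rw [Finset.card_univ, Fintype.card_coe, cellIdx, hjj]
        simp
      rw [this, hjj]
      simp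
    · have hε0 : 0 ≤ ε := (aCoef_nonneg b hb _).trans (hε j₁ le_rfl hjj)
      have hx : 0 ≤ C * ε ^ ((1 : ℝ) / 4) := mul_nonneg hC0 (Real.rpow_nonneg hε0 _)
      have hcard : ((Finset.univ : Finset (cellIdx G j₁ j₂)).card : ℝ) ≤ ((j₂ : ℝ) - j₁) * (16 * (G : ℝ) ^ 2) := by
        rw [Finset.card_univ, Fintype.card_coe, cellIdx, Finset.card_product, Nat.card_Ico]
        push_cast [Nat.cast_sub hj]
        exact mul_le_mul_of_nonneg_left (goodIdx_card G) hN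
      calc ((Finset.univ : Finset (cellIdx G j₁ j₂)).card : ℝ) * (C * ε ^ ((1 : ℝ) / 4))
          ≤ ((j₂ : ℝ) - j₁) * (16 * (G : ℝ) ^ 2) * (C * ε ^ ((1 : ℝ) / 4)) := mul_le_mul_of_nonneg_right hcard hx
        _ = _ := by ring
  have hleft := leftover_le b lam hb.le hlam.le G j₁ j₂ R hG hj hsm
  have hleft2 : ((j₂ : ℝ) - j₁) * (b * lam ^ 2 * (8 / G + 60 / 2 ^ j₁)) ≤ ((j₂ : ℝ) - j₁) * (β * lam ^ 2 * (8 / G + 60 / 2 ^ j₁)) := by
    have : 0 ≤ lam ^ 2 * (8 / (G : ℝ) + 60 / 2 ^ j₁) := by positivity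
    refine mul_le_mul_of_nonneg_left ?_ hN
    nlinarith
  have e : Real.exp (-(((j₂ : ℝ) - j₁) * (lam - 16 * (G : ℝ) ^ 2 * (C * ε ^ ((1 : ℝ) / 4)) - β * lam ^ 2 * (8 / G + 60 / 2 ^ j₁))))
      = Real.exp (0 - lam * ((j₂ : ℝ) - j₁)) * Real.exp (((j₂ : ℝ) - j₁) * (16 * (G : ℝ) ^ 2 * (C * ε ^ ((1 : ℝ) / 4))))
        * Real.exp (((j₂ : ℝ) - j₁) * (β * lam ^ 2 * (8 / G + 60 / 2 ^ j₁))) := by
    rw [← Real.exp_add, ← Real.exp_add]; congr 1; ring
  rw [e]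
  refine mul_le_mul (mul_le_mul_of_nonneg_left hprod (Real.exp_pos _).le) (Real.exp_le_exp.2 (hleft.trans hleft2)) (Real.exp_pos _).le
    (by positivity)

/-- L-MASS-T9: **the finite form of [E] P6.5 and of [C] P2.6 (`a = 0`)**: choice of the constants in `tilt_box` (with `2 lam`). -/
theorem tilt_decay (β lam : ℝ) (hβ : 0 < β) (hlam : 0 < lam) : ∃ (G j₀ : ℕ) (ε : ℝ), 1 ≤ G ∧ 0 < ε ∧ ∀ (b : ℝ), 0 < b → b ≤ β → ∀ j₁ j₂ : ℕ, j₀ ≤ j₁ → j₁ ≤ j₂ →
    (∀ j, j₁ ≤ j → j < j₂ → aCoef b (2 ^ j) ≤ ε) → ∀ (R : ℕ) (y : ℤ × ℤ), y ∈ xyBox R → G * 2 ^ j₂ ≤ latNorm y →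
    latTwo b (xyBox R) (0, 0) y ≤ Real.exp (-(lam * ((j₂ : ℝ) - j₁))) := by
  obtain ⟨C, hC0, hC⟩ := tilt_box β (2 * lam) (by positivity)
  set G : ℕ := ⌈128 * β * lam⌉₊ + 1 with hG
  set j₀ : ℕ := ⌈960 * β * lam + 2 * lam⌉₊ with hj₀
  have hG1 : 1 ≤ G := by omega
  have hGr : 128 * β * lam ≤ (G : ℝ) := by
    have := Nat.le_ceil (128 * β * lam)
    rw [hG]; push_cast; linarith
  have hG0 : (0 : ℝ) < G := by exact_mod_cast hG1
  have hG1r : (1 : ℝ) ≤ G := by exact_mod_cast hG1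
  set q : ℝ := lam / (32 * (G : ℝ) ^ 2 * (C + 1)) with hq
  have hq0 : 0 < q := by rw [hq]; positivity
  refine ⟨G, j₀, q ^ 4, hG1, by positivity, fun b hb hbβ j₁ j₂ h0 h12 ha R y hy hyn => ?_⟩
  have hpow : 960 * β * lam + 2 * lam ≤ (2 : ℝ) ^ j₁ := by
    have h1 := Nat.le_ceil (960 * β * lam + 2 * lam)
    have h2 : (j₀ : ℝ) ≤ j₁ := by exact_mod_cast h0
    have h3 : (j₁ : ℝ) ≤ (2 : ℝ) ^ j₁ := by exact_mod_cast (Nat.lt_two_pow_self (n := j₁)).le
    linarith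
  have hp0 : (0 : ℝ) < (2 : ℝ) ^ j₁ := by positivity
  have hβl : 0 < β * lam := mul_pos hβ hlam
  have hsm : 2 * lam ≤ (G : ℝ) * 2 ^ j₁ := by nlinarith
  have h := hC b hb hbβ G j₁ j₂ hG1 h12 hsm (q ^ 4) ha R y hy hyn
  refine h.trans (Real.exp_le_exp.2 ?_)
  have hN : (0 : ℝ) ≤ (j₂ : ℝ) - j₁ := by
    have : (j₁ : ℝ) ≤ j₂ := by exact_mod_cast h12
    linarith
  have e1 : (q ^ 4) ^ ((1 : ℝ) / 4) = q := by
    rw [← Real.rpow_natCast, ← Real.rpow_mul hq0.le]; norm_num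
  rw [e1]
  have e2 : 16 * (G : ℝ) ^ 2 * (C * q) ≤ lam / 2 := by
    rw [hq]
    have : 16 * (G : ℝ) ^ 2 * (C * (lam / (32 * (G : ℝ) ^ 2 * (C + 1)))) = lam / 2 * (C / (C + 1)) := by
      field_simp; ring
    rw [this]
    have h1 : C / (C + 1) ≤ 1 := (div_le_one (by linarith)).2 (by linarith)
    nlinarith
  have e3 : β * (2 * lam) ^ 2 * (8 / (G : ℝ)) ≤ lam / 4 := by
    have : β * (2 * lam) ^ 2 * (8 / (G : ℝ)) = 32 * β * lam ^ 2 / G := by ring
    rw [this, div_le_iff₀ hG0]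
    nlinarith
  have e4 : β * (2 * lam) ^ 2 * (60 / (2 : ℝ) ^ j₁) ≤ lam / 4 := by
    have : β * (2 * lam) ^ 2 * (60 / (2 : ℝ) ^ j₁) = 240 * β * lam ^ 2 / 2 ^ j₁ := by ring
    rw [this, div_le_iff₀ hp0]
    nlinarith
  have e5 : lam ≤ 2 * lam - 16 * (G : ℝ) ^ 2 * (C * q) - β * (2 * lam) ^ 2 * (8 / G + 60 / 2 ^ j₁) := by
    rw [mul_add]; linarith
  have := mul_le_mul_of_nonneg_left e5 hN
  linarith

/-- the finite size quantity. -/
theorem latS_tilt (β lam : ℝ) (hβ : 0 < β) (hlam : 0 < lam) : ∃ (G j₀ : ℕ) (ε : ℝ), 0 < ε ∧ ∀ (b : ℝ), 0 < b → b ≤ β → ∀ j₁ j₂ : ℕ, j₀ ≤ j₁ → j₁ ≤ j₂ →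
    (∀ j, j₁ ≤ j → j < j₂ → aCoef b (2 ^ j) ≤ ε) → ∀ r : ℕ, 2 * G * 2 ^ j₂ ≤ r →
    latS b r ≤ (2 * (r : ℝ) + 1) ^ 2 * Real.exp (-(lam * ((j₂ : ℝ) - j₁))) := by
  obtain ⟨G, j₀, ε, -, hε, h⟩ := tilt_decay β lam hβ hlam
  refine ⟨G, j₀, ε, hε, fun b hb hbβ j₁ j₂ h0 h12 ha r hr => ?_⟩
  have h1 : ∀ z ∈ latBdry (xyBox r), latTwo b (xyBox r) (0, 0) z ≤ Real.exp (-(lam * ((j₂ : ℝ) - j₁))) := by
    intro z hz
    refine h b hb hbβ j₁ j₂ h0 h12 ha r z (Finset.mem_filter.1 hz).1 ?_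
    rw [latNorm_of_mem_bdry r z hz]
    nlinarith [Nat.zero_le (G * 2 ^ j₂)]
  refine (Finset.sum_le_card_nsmul _ _ _ h1).trans ?_
  rw [nsmul_eq_mul]
  exact mul_le_mul_of_nonneg_right (latBdry_card_le r) (Real.exp_pos _).le

/-- the infinite volume correlation on the axis (for `C2.spin_upper_zero'`). -/
theorem xyCorr_tilt (β lam : ℝ) (hβ : 0 < β) (hlam : 0 < lam) : ∃ (G j₀ : ℕ) (ε : ℝ), 0 < ε ∧ ∀ (b : ℝ), 0 < b → b ≤ β → ∀ j₁ j₂ : ℕ, j₀ ≤ j₁ → j₁ ≤ j₂ →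
    (∀ j, j₁ ≤ j → j < j₂ → aCoef b (2 ^ j) ≤ ε) → ∀ r : ℕ, G * 2 ^ j₂ ≤ r → xyCorr b r ≤ Real.exp (-(lam * ((j₂ : ℝ) - j₁))) := by
  obtain ⟨G, j₀, ε, -, hε, h⟩ := tilt_decay β lam hβ hlam
  refine ⟨G, j₀, ε, hε, fun b hb hbβ j₁ j₂ h0 h12 ha r hr => ?_⟩
  refine le_of_tendsto (xyb_corr_tendsto b hb.le r) ?_
  filter_upwards [eventually_ge_atTop r] with R hR
  rw [xyBoxCorr_eq b R r hR]
  refine h b hb hbβ j₁ j₂ h0 h12 ha R _ ?_ ?_
  · unfold xyBox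
    simp only [Finset.mem_product, Finset.mem_Icc]
    omega
  · simpa [latNorm] using hr

/-- [C] P2.6, case `a = 0` (= `spin_upper_zero` of `TopC.lean`): `xyCorr_tilt` on the dyadic scales `j₁ ≤ j < j₂ ≈ log₂ n`, where `aCoef b (2^j) ≤ ε` by `aCoef b m → aLim b = 0`.   (helper60) -/
theorem spin_upper_zero_tilt (b : ℝ) (hb : 0 < b) (h : aLim b = 0) (K : ℝ) :
    ∀ᶠ n : ℕ in atTop, xyCorr b n ≤ (n : ℝ) ^ (-K) := by
  set K' : ℝ := max K 0 with hK'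
  have hK0 : 0 ≤ K' := le_max_right _ _
  have hKK : K ≤ K' := le_max_left _ _
  obtain ⟨G, j₀, ε, hε, H⟩ := xyCorr_tilt b (K' + 1) hb (by linarith)
  have ht : Tendsto (aCoef b) atTop (𝓝 0) := h ▸ C2.aCoef_tendsto' b hb
  obtain ⟨M, hM⟩ := eventually_atTop.1 (ht.eventually (gt_mem_nhds hε))
  set j₁ : ℕ := max j₀ M with hj₁
  set c : ℝ := K' * (Real.log (G + 1) + 1) + (K' + 1) * j₁ with hc
  set J : ℕ := max j₁ ⌈c⌉₊ with hJ
  filter_upwards [eventually_ge_atTop ((G + 1) * 2 ^ J)] with n hn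
  set j₂ : ℕ := Nat.log 2 (n / (G + 1)) with hj₂
  have hG1 : 0 < G + 1 := Nat.succ_pos G
  have hdiv : 2 ^ J ≤ n / (G + 1) := (Nat.le_div_iff_mul_le hG1).2 (by rw [mul_comm]; exact hn)
  have hdiv0 : n / (G + 1) ≠ 0 := by
    have : 0 < 2 ^ J := by positivity
    omega
  have hJj : J ≤ j₂ := (Nat.le_log_iff_pow_le (by norm_num) hdiv0).2 hdiv
  have hlow : 2 ^ j₂ ≤ n / (G + 1) := Nat.pow_log_le_self 2 hdiv0
  have hup : n / (G + 1) < 2 ^ (j₂ + 1) := Nat.lt_pow_succ_log_self (by norm_num) _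
  have h1 : G * 2 ^ j₂ ≤ n := by
    have := (Nat.le_div_iff_mul_le hG1).1 hlow
    nlinarith
  have h2 : n < 2 ^ (j₂ + 1) * (G + 1) := (Nat.div_lt_iff_lt_mul hG1).1 hup
  have hj12 : j₁ ≤ j₂ := (le_max_left _ _).trans hJj
  have hmain := H b hb le_rfl j₁ j₂ (le_max_left _ _) hj12 (fun j hj _ => by
    have : M ≤ 2 ^ j := ((le_max_right j₀ M).trans hj).trans (Nat.lt_two_pow_self).le
    exact (hM _ this).le) n h1
  refine hmain.trans ?_
  have hn0 : 0 < n := lt_of_lt_of_le (by positivity) hn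
  have hn0' : (0 : ℝ) < n := by exact_mod_cast hn0
  have hn1 : (1 : ℝ) ≤ n := by exact_mod_cast hn0
  rw [Real.rpow_def_of_pos hn0']
  apply Real.exp_le_exp.2
  have hlogn0 : 0 ≤ Real.log n := Real.log_nonneg hn1
  have hlog : Real.log n ≤ Real.log (G + 1) + ((j₂ : ℝ) + 1) := by
    have h3 : (n : ℝ) ≤ 2 ^ (j₂ + 1) * ((G : ℝ) + 1) := by exact_mod_cast h2.le
    have h4 : Real.log n ≤ Real.log (2 ^ (j₂ + 1) * ((G : ℝ) + 1)) := Real.log_le_log hn0' h3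
    rw [Real.log_mul (by positivity) (by positivity), Real.log_pow] at h4
    have h5 : Real.log 2 ≤ 1 := by
      have := Real.log_two_lt_d9
      linarith
    have h6 : ((j₂ + 1 : ℕ) : ℝ) * Real.log 2 ≤ ((j₂ : ℝ) + 1) * 1 := by
      push_cast
      exact mul_le_mul_of_nonneg_left h5 (by positivity)
    linarith
  have hcj : c ≤ j₂ := (Nat.le_ceil c).trans (by exact_mod_cast (le_max_right _ _).trans hJj)
  have h7 : K * Real.log n ≤ K' * (Real.log (G + 1) + ((j₂ : ℝ) + 1)) :=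
    (mul_le_mul_of_nonneg_right hKK hlogn0).trans (mul_le_mul_of_nonneg_left hlog hK0)
  rw [hc] at hcj
  nlinarith

end

end Claimed.Agent.R285.Mass
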