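import Claimed.Agent.R285.Glue.E5b

/-!
# ROW 285, unit MASS, file 4: [E] P6.4, C5.6 (uniformity), P6.5, P6.7 and the end of the proof of the main theorem   (pure analysis, no sorry; owner helper164)

Abstract data: `bc` (critical point), `a b m` (coefficient of the free square), `μ b` (mass), `S b r` (finite size quantity).
`MassHyp` = the three FINITE inputs (`Mass/Sharp.lean`, `Mass/Tilt.lean`, `Xy/Mass.lean`);  `StepA` = the sequence form of [E] P5.10 (`ProfileStep` of Top.lean, verbatim, with `a`, `bc`, plateau value `A`).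
Output `mass_limit`: `√(bc - b) log_L (1/μ b) → T`.
-/

set_option autoImplicit false

namespace Claimed.Agent.R285.Mass

open Filter Topology Claimed.Agent.R285.Glue.E5

noncomputable section

/-- the sequence form of [E] P5.10. -/
def StepA (bc : ℝ) (L : ℕ) (T A : ℝ) (a : ℝ → ℕ → ℝ) : Prop :=
  ∀ (b : ℕ → ℝ) (m : ℕ → ℕ) (w : ℝ), (∀ k, b k < bc) → Tendsto b atTop (𝓝 bc) →
    Tendsto (fun k => Real.sqrt (bc - b k) * Real.logb L (m k)) atTop (𝓝 w) →
    (0 < w → w < T → Tendsto (fun k => a (b k) (m k)) atTop (𝓝 A)) ∧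
    (T < w → Tendsto (fun k => a (b k) (m k)) atTop (𝓝 0))

/-- the finite inputs of [E] Section 6. -/
structure MassHyp (bc : ℝ) (a : ℝ → ℕ → ℝ) (μ : ℝ → ℝ) (S : ℝ → ℕ → ℝ) : Prop where
  bc_pos : 0 < bc
  mu_pos : ∀ b, 0 < b → b < bc → 0 < μ b
  /-- `Mass.sq_aCoef_sharp` -/
  sharp : ∃ A K : ℝ, ∀ b, bc / 2 ≤ b → b < bc → ∀ m R : ℕ, 1 ≤ m →
    a b m ≤ A * (m : ℝ) ^ 2 * Real.exp (-(μ b * R)) + K * ((R : ℝ) / m) * (1 + Real.log m)
  /-- `Mass.latS_tilt` -/
  tilt : ∀ lam : ℝ, 0 < lam → ∃ (G j₀ : ℕ) (ε : ℝ), 0 < ε ∧ ∀ b, 0 < b → b ≤ bc → ∀ j₁ j₂ : ℕ, j₀ ≤ j₁ → j₁ ≤ j₂ →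
    (∀ j, j₁ ≤ j → j < j₂ → a b (2 ^ j) ≤ ε) → ∀ r : ℕ, 2 * G * 2 ^ j₂ ≤ r →
      S b r ≤ (2 * (r : ℝ) + 1) ^ 2 * Real.exp (-(lam * ((j₂ : ℝ) - j₁)))
  /-- `xyMass_ge_of_latS` -/
  fs : ∀ b, 0 < b → ∀ r : ℕ, 1 ≤ r → S b r ≤ 1 / 2 → Real.log 2 / r ≤ μ b

variable {bc : ℝ} {a : ℝ → ℕ → ℝ} {μ : ℝ → ℝ} {S : ℝ → ℕ → ℝ} {L : ℕ} {T A : ℝ}

/-- polynomial times exponential decay. -/
theorem aux_lower (A0 K A c : ℝ) (hA : 0 < A) (hc : 0 < c) :
    ∀ᶠ x : ℝ in atTop, |A0| * Real.exp (-x) + |K| * ((3 * x + 1) * (1 + x)) * Real.exp (-(c * x)) < A / 2 := by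
  have h1 : Tendsto (fun x : ℝ => |A0| * Real.exp (-x)) atTop (𝓝 (|A0| * 0)) :=
    (Real.tendsto_exp_neg_atTop_nhds_zero).const_mul _
  have h2 : Tendsto (fun x : ℝ => x ^ 2 / Real.exp (c * x)) atTop (𝓝 0) :=
    (isLittleO_pow_exp_pos_mul_atTop (k := 2) hc).tendsto_div_nhds_zero
  have h3 : Tendsto (fun x : ℝ => |A0| * Real.exp (-x) + |K| * 8 * (x ^ 2 / Real.exp (c * x))) atTop (𝓝 (|A0| * 0 + |K| * 8 * 0)) :=
    h1.add (h2.const_mul _)
  simp only [mul_zero, add_zero] at h3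
  filter_upwards [h3.eventually (gt_mem_nhds (half_pos hA)), eventually_ge_atTop (1 : ℝ)] with x hx hx1
  refine lt_of_le_of_lt ?_ hx
  have e1 : (3 * x + 1) * (1 + x) ≤ 8 * x ^ 2 := by nlinarith
  have e2 : Real.exp (-(c * x)) = 1 / Real.exp (c * x) := by rw [Real.exp_neg]; simp
  have e3 : 0 < Real.exp (c * x) := Real.exp_pos _
  have e4 : |K| * ((3 * x + 1) * (1 + x)) * Real.exp (-(c * x)) ≤ |K| * 8 * (x ^ 2 / Real.exp (c * x)) := by
    rw [e2]
    have : |K| * 8 * (x ^ 2 / Real.exp (c * x)) = |K| * (8 * x ^ 2) * (1 / Real.exp (c * x)) := by ring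
    rw [this]
    have h0 : 0 ≤ 1 / Real.exp (c * x) := by positivity
    exact mul_le_mul_of_nonneg_right (mul_le_mul_of_nonneg_left e1 (abs_nonneg _)) h0
  linarith

/-- the finite step of [E] P6.4. -/
theorem lower_core {A0 K A θ μ' av : ℝ} {n : ℕ} (hn : 1 ≤ n) (hθ : 0 ≤ θ) (hμ : 0 < μ')
    (hs : ∀ R : ℕ, av ≤ A0 * (n : ℝ) ^ 2 * Real.exp (-(μ' * R)) + K * ((R : ℝ) / n) * (1 + Real.log n))
    (hav : A / 2 ≤ av)
    (hx : |A0| * Real.exp (-Real.log n) + |K| * ((3 * Real.log n + 1) * (1 + Real.log n)) * Real.exp (-((1 - θ) * Real.log n)) < A / 2) :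
    Real.exp (θ * Real.log n) ≤ μ'⁻¹ := by
  by_contra hcon
  push Not at hcon
  set x := Real.log n with hxdef
  have hn' : (1 : ℝ) ≤ n := by exact_mod_cast hn
  have hn0 : (0 : ℝ) < n := by linarith
  have hx0 : 0 ≤ x := Real.log_nonneg hn'
  have hnx : (n : ℝ) = Real.exp x := (Real.exp_log hn0).symm
  have hq : 0 ≤ 3 * x / μ' := by positivity
  have hR1 : 3 * x / μ' ≤ (⌈3 * x / μ'⌉₊ : ℝ) := Nat.le_ceil _
  have hR2 : (⌈3 * x / μ'⌉₊ : ℝ) < 3 * x / μ' + 1 := Nat.ceil_lt_add_one hq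
  have h := hs ⌈3 * x / μ'⌉₊
  set R : ℝ := (⌈3 * x / μ'⌉₊ : ℝ) with hR
  have hμR : 3 * x ≤ μ' * R := by
    have := mul_le_mul_of_nonneg_left hR1 hμ.le
    rwa [mul_div_cancel₀ _ hμ.ne'] at this
  -- first term
  have t1 : A0 * (n : ℝ) ^ 2 * Real.exp (-(μ' * R)) ≤ |A0| * Real.exp (-x) := by
    have e1 : Real.exp (-(μ' * R)) ≤ Real.exp (-(3 * x)) := Real.exp_le_exp.2 (by linarith)
    have e2 : (n : ℝ) ^ 2 * Real.exp (-(3 * x)) = Real.exp (-x) := by
      rw [hnx, ← Real.exp_nat_mul, ← Real.exp_add]; congr 1; push_cast; ring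
    calc A0 * (n : ℝ) ^ 2 * Real.exp (-(μ' * R)) ≤ |A0| * (n : ℝ) ^ 2 * Real.exp (-(μ' * R)) := by
          have := le_abs_self A0
          have h0 : 0 ≤ (n : ℝ) ^ 2 * Real.exp (-(μ' * R)) := by positivity
          nlinarith
      _ ≤ |A0| * ((n : ℝ) ^ 2 * Real.exp (-(3 * x))) := by
          rw [mul_assoc]
          exact mul_le_mul_of_nonneg_left (mul_le_mul_of_nonneg_left e1 (by positivity)) (abs_nonneg _)
      _ = |A0| * Real.exp (-x) := by rw [e2]
  -- second term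
  have t2 : K * (R / n) * (1 + x) ≤ |K| * ((3 * x + 1) * (1 + x)) * Real.exp (-((1 - θ) * x)) := by
    have e0 : (1 : ℝ) ≤ Real.exp (θ * x) := Real.one_le_exp (by positivity)
    have e1 : R ≤ (3 * x + 1) * Real.exp (θ * x) := by
      have : 3 * x / μ' = 3 * x * μ'⁻¹ := by rw [div_eq_mul_inv]
      have h3 : 3 * x * μ'⁻¹ ≤ 3 * x * Real.exp (θ * x) := mul_le_mul_of_nonneg_left hcon.le (by positivity)
      nlinarith
    have e2 : Real.exp (θ * x) / n = Real.exp (-((1 - θ) * x)) := by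
      rw [hnx, ← Real.exp_sub]; congr 1; ring
    have e3 : R / n ≤ (3 * x + 1) * Real.exp (-((1 - θ) * x)) := by
      rw [← e2, ← mul_div_assoc]
      exact div_le_div_of_nonneg_right e1 hn0.le
    have hRn : 0 ≤ R / n := by positivity
    calc K * (R / n) * (1 + x) ≤ |K| * (R / n) * (1 + x) := by
          have := le_abs_self K
          have h0 : 0 ≤ (R / n) * (1 + x) := by positivity
          nlinarith
      _ ≤ |K| * ((3 * x + 1) * Real.exp (-((1 - θ) * x))) * (1 + x) := by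
          have h1 : 0 ≤ 1 + x := by linarith
          exact mul_le_mul_of_nonneg_right (mul_le_mul_of_nonneg_left e3 (abs_nonneg _)) h1
      _ = |K| * ((3 * x + 1) * (1 + x)) * Real.exp (-((1 - θ) * x)) := by ring
  linarith

theorem Below.half (hbc : 0 < bc) {b : ℕ → ℝ} (hb : Below bc b) : ∀ᶠ k in atTop, bc / 2 ≤ b k :=
  (hb.2.eventually (lt_mem_nhds (half_lt_self hbc))).mono fun _ h => h.le

/-- [E] P6.4 (lower bound on the length). -/
theorem mass_lower (H : MassHyp bc a μ S) (hL : 2 ≤ L) (hT : 0 < T) (hA : 0 < A) (h : StepA bc L T A a) {b : ℕ → ℝ} (hb : Below bc b)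
    {w : ℝ} (hw : w < T) : ∀ᶠ k in atTop, w < Real.sqrt (bc - b k) * Real.logb L (μ (b k))⁻¹ := by
  obtain ⟨A0, K, hsharp⟩ := H.sharp
  have hL1 : (1 : ℝ) < L := by exact_mod_cast (by omega : 1 < L)
  have hlogL : 0 < Real.log L := Real.log_pos hL1
  -- the scale `w'` and the exponent `θ`
  set w0 : ℝ := max w 0 with hw0
  have hw0T : w0 < T := max_lt hw hT
  have hw00 : 0 ≤ w0 := le_max_right _ _
  set w' : ℝ := (w0 + T) / 2 with hw'
  have hw'0 : 0 < w' := by rw [hw']; linarith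
  have hw'T : w' < T := by rw [hw']; linarith
  have hw0w' : w0 < w' := by rw [hw']; linarith
  set θ : ℝ := (w0 / w' + 1) / 2 with hθ
  have hq1 : w0 / w' < 1 := (div_lt_one hw'0).2 hw0w'
  have hq0 : 0 ≤ w0 / w' := div_nonneg hw00 hw'0.le
  have hθ0 : 0 ≤ θ := by rw [hθ]; linarith
  have hθ1 : 0 < 1 - θ := by rw [hθ]; linarith
  have hθw : w < θ * w' := by
    have e : θ * w' = (w0 + w') / 2 := by rw [hθ]; field_simp
    rw [e]
    have : w ≤ w0 := le_max_left _ _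
    linarith
  -- the sizes
  have hsc : Scale bc L b (refS bc L b w') w' := refS_scale hL hb hw'0.le
  have hsize := hsc.size_atTop hL hb hw'0
  have hcoef := (h b (refS bc L b w') w' hb.1 hb.2 hsc).1 hw'0 hw'T
  have hlog : Tendsto (fun k => Real.log (refS bc L b w' k)) atTop atTop :=
    Real.tendsto_log_atTop.comp (tendsto_natCast_atTop_atTop.comp hsize)
  have hθsc : Tendsto (fun k => θ * (Real.sqrt (bc - b k) * Real.logb L (refS bc L b w' k))) atTop (𝓝 (θ * w')) :=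
    hsc.const_mul θ
  filter_upwards [hcoef.eventually (lt_mem_nhds (half_lt_self hA)), hsize.eventually_ge_atTop 1,
    hlog.eventually (aux_lower A0 K A (1 - θ) hA hθ1), Below.half H.bc_pos hb, hθsc.eventually (lt_mem_nhds hθw)]
    with k h1 h2 h3 h4 h5
  have hbk : 0 < b k := lt_of_lt_of_le (half_pos H.bc_pos) h4
  have hμ := H.mu_pos (b k) hbk (hb.1 k)
  have hcore := lower_core (A0 := A0) (K := K) (A := A) (θ := θ) h2 hθ0 hμ
    (fun R => hsharp (b k) h4 (hb.1 k) _ R h2) h1.le h3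
  refine lt_of_lt_of_le h5 ?_
  have e1 : Real.logb L (Real.exp (θ * Real.log (refS bc L b w' k))) ≤ Real.logb L (μ (b k))⁻¹ :=
    Real.logb_le_logb_of_le hL1 (Real.exp_pos _) hcore
  have e2 : Real.logb L (Real.exp (θ * Real.log (refS bc L b w' k))) = θ * Real.logb L (refS bc L b w' k) := by
    rw [Real.logb, Real.log_exp, Real.logb, mul_div_assoc]
  rw [e2] at e1
  have := mul_le_mul_of_nonneg_left e1 (hb.pos k).le
  calc θ * (Real.sqrt (bc - b k) * Real.logb L (refS bc L b w' k))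
      = Real.sqrt (bc - b k) * (θ * Real.logb L (refS bc L b w' k)) := by ring
    _ ≤ _ := this

/-- [E] C5.6 (uniformity on compact intervals of scales above `T`), for the dyadic sizes. -/
theorem coef_uniform (h : StepA bc L T A a) {b : ℕ → ℝ} (hb : Below bc b) {u v : ℝ} (hu : T < u) {ε : ℝ} (hε : 0 < ε) :
    ∀ᶠ k in atTop, ∀ j : ℕ, u ≤ Real.sqrt (bc - b k) * Real.logb L ((2 ^ j : ℕ) : ℝ) →
      Real.sqrt (bc - b k) * Real.logb L ((2 ^ j : ℕ) : ℝ) ≤ v → a (b k) (2 ^ j) ≤ ε := by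
  by_contra hcon
  rw [not_eventually] at hcon
  obtain ⟨φ, hφ, hP⟩ := extraction_of_frequently_atTop hcon
  push Not at hP
  choose j hj1 hj2 hj3 using hP
  obtain ⟨w0, hw0, φ', hφ', hlim⟩ := isCompact_Icc.tendsto_subseq (s := Set.Icc u v)
    (x := fun n => Real.sqrt (bc - b (φ n)) * Real.logb L ((2 ^ j n : ℕ) : ℝ)) (fun n => ⟨hj1 n, hj2 n⟩)
  have hB : Below bc (fun n => b (φ (φ' n))) := (hb.comp hφ.tendsto_atTop).comp hφ'.tendsto_atTop
  have h0 := (h (fun n => b (φ (φ' n))) (fun n => 2 ^ j (φ' n)) w0 hB.1 hB.2 hlim).2 (lt_of_lt_of_le hu hw0.1)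
  have : ε ≤ 0 := ge_of_tendsto' h0 fun n => (hj3 (φ' n)).le
  linarith

theorem logb_two_pow (L j : ℕ) : Real.logb L ((2 ^ j : ℕ) : ℝ) = (j : ℝ) * Real.logb L 2 := by
  push_cast
  rw [Real.logb_pow]

/-- the finite step of [E] P6.7. -/
theorem upper_core {lam N : ℝ} {r : ℕ} (hr : 1 ≤ r) (h : Real.log 18 + 2 * Real.log r < lam * N) :
    (2 * (r : ℝ) + 1) ^ 2 * Real.exp (-(lam * N)) ≤ 1 / 2 := by
  have hr' : (1 : ℝ) ≤ r := by exact_mod_cast hr
  have hr0 : (0 : ℝ) < r := by linarith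
  have e1 : Real.log 18 + 2 * Real.log r = Real.log (18 * (r : ℝ) ^ 2) := by
    rw [Real.log_mul (by norm_num) (by positivity), Real.log_pow]; push_cast; ring
  have e2 : Real.exp (-(lam * N)) ≤ (18 * (r : ℝ) ^ 2)⁻¹ := by
    rw [← Real.exp_log (by positivity : (0 : ℝ) < 18 * (r : ℝ) ^ 2), ← Real.exp_neg]
    exact Real.exp_le_exp.2 (by linarith)
  have e3 : (2 * (r : ℝ) + 1) ^ 2 ≤ 9 * (r : ℝ) ^ 2 := by nlinarith
  calc (2 * (r : ℝ) + 1) ^ 2 * Real.exp (-(lam * N)) ≤ 9 * (r : ℝ) ^ 2 * (18 * (r : ℝ) ^ 2)⁻¹ :=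
        mul_le_mul e3 e2 (Real.exp_pos _).le (by positivity)
    _ = 1 / 2 := by field_simp; norm_num

/-- [E] P6.5 + P6.7 (upper bound on the length). -/
theorem mass_upper (H : MassHyp bc a μ S) (hL : 2 ≤ L) (hT : 0 < T) (h : StepA bc L T A a) {b : ℕ → ℝ} (hb : Below bc b)
    {w : ℝ} (hw : T < w) : ∀ᶠ k in atTop, Real.sqrt (bc - b k) * Real.logb L (μ (b k))⁻¹ < w := by
  have hL1 : (1 : ℝ) < L := by exact_mod_cast (by omega : 1 < L)
  have hlogL : 0 < Real.log L := Real.log_pos hL1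
  have hl2 : 0 < Real.logb L 2 := Real.logb_pos hL1 (by norm_num)
  set l2 : ℝ := Real.logb L 2 with hl2def
  set u : ℝ := T + (w - T) / 4 with hu
  set v : ℝ := T + (w - T) / 2 with hv
  set w' : ℝ := T + 3 * (w - T) / 4 with hw'
  have hTu : T < u := by rw [hu]; linarith
  have huv : u < v := by rw [hu, hv]; linarith
  have hvw' : v < w' := by rw [hv, hw']; linarith
  have hw'w : w' < w := by rw [hw']; linarith
  have hu0 : 0 < u := hT.trans hTu
  have hv0 : 0 < v := hu0.trans huv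
  have hw'0 : 0 < w' := hv0.trans hvw'
  set d : ℕ → ℝ := fun k => Real.sqrt (bc - b k) with hd
  have hd0 : Tendsto d atTop (𝓝 0) := hb.tendsto_dl
  have hdpos : ∀ k, 0 < d k := hb.pos
  set J1 : ℕ → ℕ := fun k => ⌊u / (d k * l2)⌋₊ + 1 with hJ1
  set J2 : ℕ → ℕ := fun k => ⌊v / (d k * l2)⌋₊ with hJ2
  have tJ2 : Tendsto (fun k => d k * (l2 * (J2 k : ℝ))) atTop (𝓝 v) := hb.floor_scale hl2 hv0.le
  have tJ1 : Tendsto (fun k => d k * (l2 * (J1 k : ℝ))) atTop (𝓝 u) := by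
    have h1 := (hb.floor_scale hl2 hu0.le).add (hd0.mul_const l2)
    rw [zero_mul, add_zero] at h1
    refine h1.congr fun k => ?_
    simp only [hJ1, hd]
    push_cast
    ring
  -- the tilt
  set lam : ℝ := (2 * w' * Real.log L + 1) * l2 / (v - u) with hlam
  have hlam0 : 0 < lam := by
    rw [hlam]
    have : 0 < v - u := by linarith
    positivity
  obtain ⟨G, j₀, ε, hε, htilt⟩ := H.tilt lam hlam0
  have hr : Scale bc L b (refS bc L b w') w' := refS_scale hL hb hw'0.le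
  have hrsize := hr.size_atTop hL hb hw'0
  -- (c1)
  have c1 : ∀ᶠ k in atTop, j₀ ≤ J1 k := by
    have := hb.atTop_of_mul hu0 tJ1
    filter_upwards [this.eventually_ge_atTop (l2 * (j₀ : ℝ))] with k hk
    have := le_of_mul_le_mul_left hk hl2
    exact_mod_cast this
  -- (c2)
  have tdiff : Tendsto (fun k => d k * (l2 * (J2 k : ℝ)) - d k * (l2 * (J1 k : ℝ))) atTop (𝓝 (v - u)) := tJ2.sub tJ1
  have c2 : ∀ᶠ k in atTop, J1 k ≤ J2 k := by
    filter_upwards [tdiff.eventually (lt_mem_nhds (sub_pos.2 huv))] with k hk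
    have h1 : d k * (l2 * (J1 k : ℝ)) < d k * (l2 * (J2 k : ℝ)) := by linarith
    have h2 := lt_of_mul_lt_mul_left (lt_of_mul_lt_mul_left h1 (hdpos k).le) hl2.le
    exact_mod_cast h2.le
  -- (c4)
  have hsc2 : Scale bc L b (fun k => 2 * (G + 1) * 2 ^ J2 k) v := by
    have h1 := (hd0.mul_const (Real.logb L ((2 * (G + 1) : ℕ) : ℝ))).add tJ2
    rw [zero_mul, zero_add] at h1
    refine h1.congr fun k => ?_
    have e : (((2 * (G + 1) * 2 ^ J2 k : ℕ)) : ℝ) = ((2 * (G + 1) : ℕ) : ℝ) * ((2 ^ J2 k : ℕ) : ℝ) := by push_cast; ring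
    rw [e, Real.logb_mul (by positivity) (by positivity), logb_two_pow]
    simp only [hd]
    ring
  have c4 := hsc2.le_of_lt hL hb hv0 hvw' hr
  -- (c5)
  have t5 : Tendsto (fun k => d k * (lam * ((J2 k : ℝ) - J1 k) - (Real.log 18 + 2 * Real.log (refS bc L b w' k)))) atTop (𝓝 1) := by
    have h1 := (tdiff.const_mul (lam / l2)).sub ((hd0.mul_const (Real.log 18)).add (hr.const_mul (2 * Real.log L)))
    have e : lam / l2 * (v - u) - (0 * Real.log 18 + 2 * Real.log L * w') = 1 := by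
      rw [hlam]
      have h3 : v - u ≠ 0 := by linarith
      field_simp
      ring
    rw [e] at h1
    refine h1.congr fun k => ?_
    simp only [hd, Real.logb]
    field_simp
  -- (c6)
  have t6 : Tendsto (fun k => d k * Real.logb L (refS bc L b w' k) - d k * Real.logb L (Real.log 2)) atTop (𝓝 w') := by
    have h1 := Tendsto.sub hr (hd0.mul_const (Real.logb L (Real.log 2)))
    rwa [zero_mul, sub_zero] at h1
  filter_upwards [c1, c2, c4, coef_uniform h hb hTu (v := v) hε, t5.eventually (lt_mem_nhds one_pos),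
    t6.eventually (gt_mem_nhds hw'w), hrsize.eventually_ge_atTop 1, Below.half H.bc_pos hb] with k k1 k2 k4 k3 k5 k6 k7 k8
  have hbk : 0 < b k := lt_of_lt_of_le (half_pos H.bc_pos) k8
  have hμ := H.mu_pos (b k) hbk (hb.1 k)
  have hS := htilt (b k) hbk (hb.1 k).le (J1 k) (J2 k) k1 k2 (fun j hj1 hj2 => ?_) (refS bc L b w' k) ?_
  · have h5 : Real.log 18 + 2 * Real.log (refS bc L b w' k) < lam * ((J2 k : ℝ) - J1 k) := by
      have := (pos_iff_pos_of_mul_pos k5).1 (hdpos k)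
      linarith
    have hfs := H.fs (b k) hbk _ k7 (hS.trans (upper_core k7 h5))
    have hr0 : (0 : ℝ) < refS bc L b w' k := by exact_mod_cast k7
    have hlog2 : 0 < Real.log 2 := Real.log_pos (by norm_num)
    have e1 : (μ (b k))⁻¹ ≤ (refS bc L b w' k : ℝ) / Real.log 2 := by
      rw [inv_le_comm₀ hμ (by positivity), inv_div]
      exact hfs
    have e2 := Real.logb_le_logb_of_le hL1 (inv_pos.2 hμ) e1
    rw [Real.logb_div hr0.ne' hlog2.ne'] at e2
    have e3 := mul_le_mul_of_nonneg_left e2 (hdpos k).le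
    refine lt_of_le_of_lt e3 ?_
    rw [mul_sub]
    exact k6
  · refine k3 j ?_ ?_
    · rw [logb_two_pow]
      have h1 : u / (d k * l2) < (J1 k : ℝ) := by
        simp only [hJ1]; push_cast; exact Nat.lt_floor_add_one _
      have h2 : (J1 k : ℝ) ≤ j := by exact_mod_cast hj1
      have h3 : 0 < d k * l2 := mul_pos (hdpos k) hl2
      rw [div_lt_iff₀ h3] at h1
      have : (J1 k : ℝ) * (d k * l2) ≤ (j : ℝ) * (d k * l2) := mul_le_mul_of_nonneg_right h2 h3.le
      calc u ≤ (j : ℝ) * (d k * l2) := by linarith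
        _ = d k * ((j : ℝ) * l2) := by ring
    · rw [logb_two_pow]
      have h3 : 0 < d k * l2 := mul_pos (hdpos k) hl2
      have h1 : (J2 k : ℝ) ≤ v / (d k * l2) := Nat.floor_le (by positivity)
      have h2 : (j : ℝ) ≤ J2 k := by exact_mod_cast hj2.le
      rw [le_div_iff₀ h3] at h1
      have : (j : ℝ) * (d k * l2) ≤ (J2 k : ℝ) * (d k * l2) := mul_le_mul_of_nonneg_right h2 h3.le
      calc d k * ((j : ℝ) * l2) = (j : ℝ) * (d k * l2) := by ring
        _ ≤ v := by linarith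
  · refine le_trans ?_ k4
    have : 2 * G ≤ 2 * (G + 1) := by omega
    exact Nat.mul_le_mul_right _ this

/-- **[E] Section 6.** -/
theorem mass_limit (H : MassHyp bc a μ S) (hL : 2 ≤ L) (hT : 0 < T) (hA : 0 < A) (h : StepA bc L T A a) :
    Tendsto (fun b => Real.sqrt (bc - b) * Real.logb L (μ b)⁻¹) (𝓝[<] bc) (𝓝 T) := by
  refine tendsto_of_seq_tendsto fun b hb => ?_
  have hb' := tendsto_nhdsWithin_iff.1 hb
  obtain ⟨N, hN⟩ := eventually_atTop.1 hb'.2
  have hB : Below bc (fun k => b (k + N)) :=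
    ⟨fun k => hN (k + N) (Nat.le_add_left _ _), hb'.1.comp (tendsto_add_atTop_nat N)⟩
  have key : Tendsto (fun k => Real.sqrt (bc - b (k + N)) * Real.logb L (μ (b (k + N)))⁻¹) atTop (𝓝 T) :=
    tendsto_order.2 ⟨fun w hw => mass_lower H hL hT hA h hB hw, fun w hw => mass_upper H hL hT h hB hw⟩
  exact (tendsto_add_atTop_iff_nat (f := fun k => Real.sqrt (bc - b k) * Real.logb L (μ (b k))⁻¹) N).1 key

end

end Claimed.Agent.R285.Mass
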