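import Mathlib

/-!
# ROW 285, unit MASS, file 1: unit flows of LOGARITHMIC energy in the square `{0..m-1}²`   (Mathlib only; owner helper164)

Purpose: `Var(φ(m-1,y) - φ(0,y)) ≤ (2π)² b · 20 (1 + log m)` on the free height square (`Mass/Sharp.lean`), through the reference variance bound.

A function `ψ : ℕ → ℕ → ℝ` plays the role of the height.  A flow is a pair `Th, Tv : ℕ → ℕ → ℝ` (`Th x y` on the bond `(x,y)-(x+1,y)`, `x + 1 < m`, `y < m`; `Tv x y` on the bond `(x,y)-(x,y+1)`, `x < m`, `y + 1 < m`).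
`GridFlow m ℓ c`: the linear functional `ℓ` is the flow statistic of a flow of energy `≤ c`.

## The flow ("column urn")
`cavg y n x ψ = (x+1)⁻¹ ∑_{i ≤ x} ψ x (y+i)`: average over `x+1` rows of the column `x`.  For `y + n < m`, `n < m`:
  `cavg (x+1) - cavg x = (x+1)⁻¹ ∑_{i ≤ x} (ψ (x+1) (y+i) - ψ x (y+i)) + ∑_{i ≤ x} (i+1)/((x+1)(x+2)) (ψ (x+1) (y+i+1) - ψ (x+1) (y+i))`   (Abel summation),
energy of the step `≤ 1/(x+1) + 1/(x+1)`.  Sum over `x < n`: `cavg n - ψ 0 y`, energy `≤ 2 H_n ≤ 2 (1 + log m)` (`harmonic_le_one_add_log`)            (`gridFlow_spread`).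
Mirror image in `x` (`gridFlow_reflX`), straight rows in the middle (`gridFlow_mid`), `n = (m-1)/2`: the row `y ≤ (m-1)/2`; the other rows by the mirror image in `y` (`gridFlow_reflY`).
-/

set_option autoImplicit false

namespace Claimed.Agent.R285.Mass

open Finset

noncomputable section

/-- the flow statistic `∑_e T_e ∇_e ψ` on the square `{0..m-1}²`. -/
def gridStat (m : ℕ) (Th Tv : ℕ → ℕ → ℝ) (ψ : ℕ → ℕ → ℝ) : ℝ :=
  ∑ x ∈ range (m - 1), ∑ y ∈ range m, Th x y * (ψ (x + 1) y - ψ x y)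
    + ∑ x ∈ range m, ∑ y ∈ range (m - 1), Tv x y * (ψ x (y + 1) - ψ x y)

/-- the energy `∑_e T_e²`. -/
def gridEn (m : ℕ) (Th Tv : ℕ → ℕ → ℝ) : ℝ :=
  ∑ x ∈ range (m - 1), ∑ y ∈ range m, Th x y ^ 2 + ∑ x ∈ range m, ∑ y ∈ range (m - 1), Tv x y ^ 2

/-- `ℓ` is the statistic of a flow of energy at most `c`. -/
def GridFlow (m : ℕ) (ℓ : (ℕ → ℕ → ℝ) → ℝ) (c : ℝ) : Prop :=
  ∃ Th Tv : ℕ → ℕ → ℝ, (∀ ψ, gridStat m Th Tv ψ = ℓ ψ) ∧ gridEn m Th Tv ≤ c

/-- L-MASS-G1. -/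
theorem GridFlow.neg {m : ℕ} {ℓ : (ℕ → ℕ → ℝ) → ℝ} {c : ℝ} (h : GridFlow m ℓ c) : GridFlow m (fun ψ => - ℓ ψ) c := by
  obtain ⟨Th, Tv, h1, h2⟩ := h
  refine ⟨fun x y => - Th x y, fun x y => - Tv x y, fun ψ => ?_, ?_⟩
  · beta_reduce
    rw [← h1 ψ]
    simp only [gridStat, neg_mul, Finset.sum_neg_distrib]
    ring
  · refine le_trans (le_of_eq ?_) h2
    simp only [gridEn, neg_sq]

theorem GridFlow.mono {m : ℕ} {ℓ : (ℕ → ℕ → ℝ) → ℝ} {c c' : ℝ} (h : GridFlow m ℓ c) (hc : c ≤ c') : GridFlow m ℓ c' := by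
  obtain ⟨Th, Tv, h1, h2⟩ := h
  exact ⟨Th, Tv, h1, h2.trans hc⟩

theorem GridFlow.congr_fun' {m : ℕ} {ℓ ℓ' : (ℕ → ℕ → ℝ) → ℝ} {c : ℝ} (h : GridFlow m ℓ c) (he : ∀ ψ, ℓ ψ = ℓ' ψ) :
    GridFlow m ℓ' c := by
  obtain ⟨Th, Tv, h1, h2⟩ := h
  exact ⟨Th, Tv, fun ψ => (h1 ψ).trans (he ψ), h2⟩

/-- L-MASS-G1: `(a+b+c)² ≤ 3(a²+b²+c²)` bond by bond. -/
theorem GridFlow.add3 {m : ℕ} {ℓ₁ ℓ₂ ℓ₃ : (ℕ → ℕ → ℝ) → ℝ} {c₁ c₂ c₃ : ℝ} (h₁ : GridFlow m ℓ₁ c₁) (h₂ : GridFlow m ℓ₂ c₂)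
    (h₃ : GridFlow m ℓ₃ c₃) : GridFlow m (fun ψ => ℓ₁ ψ + ℓ₂ ψ + ℓ₃ ψ) (3 * (c₁ + c₂ + c₃)) := by
  obtain ⟨Th1, Tv1, a1, b1⟩ := h₁
  obtain ⟨Th2, Tv2, a2, b2⟩ := h₂
  obtain ⟨Th3, Tv3, a3, b3⟩ := h₃
  refine ⟨fun x y => Th1 x y + Th2 x y + Th3 x y, fun x y => Tv1 x y + Tv2 x y + Tv3 x y, fun ψ => ?_, ?_⟩
  · beta_reduce
    rw [← a1 ψ, ← a2 ψ, ← a3 ψ]
    simp only [gridStat, add_mul, Finset.sum_add_distrib]
    ring
  · have key : gridEn m (fun x y => Th1 x y + Th2 x y + Th3 x y) (fun x y => Tv1 x y + Tv2 x y + Tv3 x y)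
        ≤ 3 * (gridEn m Th1 Tv1 + gridEn m Th2 Tv2 + gridEn m Th3 Tv3) := by
      have e : 3 * (gridEn m Th1 Tv1 + gridEn m Th2 Tv2 + gridEn m Th3 Tv3)
          = ∑ x ∈ range (m - 1), ∑ y ∈ range m, 3 * (Th1 x y ^ 2 + Th2 x y ^ 2 + Th3 x y ^ 2)
            + ∑ x ∈ range m, ∑ y ∈ range (m - 1), 3 * (Tv1 x y ^ 2 + Tv2 x y ^ 2 + Tv3 x y ^ 2) := by
        simp only [gridEn, ← Finset.mul_sum, Finset.sum_add_distrib]
        ring
      rw [e]
      unfold gridEn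
      have q : ∀ a b c : ℝ, (a + b + c) ^ 2 ≤ 3 * (a ^ 2 + b ^ 2 + c ^ 2) := fun a b c => by
        nlinarith [sq_nonneg (a - b), sq_nonneg (a - c), sq_nonneg (b - c)]
      exact add_le_add (Finset.sum_le_sum fun x _ => Finset.sum_le_sum fun y _ => q _ _ _)
        (Finset.sum_le_sum fun x _ => Finset.sum_le_sum fun y _ => q _ _ _)
    linarith

/-- L-MASS-G1: mirror image in `x`: `Th' x y = - Th (m-2-x) y`, `Tv' x y = Tv (m-1-x) y` (`Finset.sum_range_reflect`). -/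
theorem gridFlow_reflX {m : ℕ} {ℓ : (ℕ → ℕ → ℝ) → ℝ} {c : ℝ} (h : GridFlow m ℓ c) :
    GridFlow m (fun ψ => ℓ fun x y => ψ (m - 1 - x) y) c := by
  obtain ⟨Th, Tv, h1, h2⟩ := h
  refine ⟨fun x y => - Th (m - 1 - 1 - x) y, fun x y => Tv (m - 1 - x) y, fun ψ => ?_, ?_⟩
  · beta_reduce
    rw [← h1]
    unfold gridStat
    congr 1
    · rw [← Finset.sum_range_reflect (fun x => ∑ y ∈ range m, Th x y * (ψ (m - 1 - (x + 1)) y - ψ (m - 1 - x) y))]
      refine Finset.sum_congr rfl fun x hx => Finset.sum_congr rfl fun y _ => ?_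
      rw [Finset.mem_range] at hx
      rw [show m - 1 - (m - 1 - 1 - x + 1) = x by omega, show m - 1 - (m - 1 - 1 - x) = x + 1 by omega]
      ring
    · rw [← Finset.sum_range_reflect (fun x => ∑ y ∈ range (m - 1), Tv x y * (ψ (m - 1 - x) (y + 1) - ψ (m - 1 - x) y))]
      refine Finset.sum_congr rfl fun x hx => Finset.sum_congr rfl fun y _ => ?_
      rw [Finset.mem_range] at hx
      rw [show m - 1 - (m - 1 - x) = x by omega]
  · refine le_trans (le_of_eq ?_) h2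
    unfold gridEn
    congr 1
    · rw [← Finset.sum_range_reflect (fun x => ∑ y ∈ range m, Th x y ^ 2)]
      simp only [neg_sq]
    · rw [← Finset.sum_range_reflect (fun x => ∑ y ∈ range (m - 1), Tv x y ^ 2)]

/-- exchange of the two coordinates. -/
theorem gridFlow_swap {m : ℕ} {ℓ : (ℕ → ℕ → ℝ) → ℝ} {c : ℝ} (h : GridFlow m ℓ c) :
    GridFlow m (fun ψ => ℓ fun x y => ψ y x) c := by
  obtain ⟨Th, Tv, h1, h2⟩ := h
  refine ⟨fun x y => Tv y x, fun x y => Th y x, fun ψ => ?_, ?_⟩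
  · beta_reduce
    rw [← h1]
    unfold gridStat
    rw [add_comm, Finset.sum_comm]
    congr 1
    rw [Finset.sum_comm]
  · refine le_trans (le_of_eq ?_) h2
    unfold gridEn
    rw [add_comm, Finset.sum_comm]
    congr 1
    rw [Finset.sum_comm]

/-- L-MASS-G1: mirror image in `y`. -/
theorem gridFlow_reflY {m : ℕ} {ℓ : (ℕ → ℕ → ℝ) → ℝ} {c : ℝ} (h : GridFlow m ℓ c) :
    GridFlow m (fun ψ => ℓ fun x y => ψ x (m - 1 - y)) c :=
  gridFlow_swap (gridFlow_reflX (gridFlow_swap h))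

/-- average over the rows `y, …, y+x` of the column `x'`. -/
def cavg (y x x' : ℕ) (ψ : ℕ → ℕ → ℝ) : ℝ := ((x : ℝ) + 1)⁻¹ * ∑ i ∈ range (x + 1), ψ x' (y + i)

/-- Abel summation. -/
theorem grid_abel (a : ℕ → ℝ) (N : ℕ) :
    ∑ i ∈ range N, ((i : ℝ) + 1) * (a (i + 1) - a i) = N * a N - ∑ i ∈ range N, a i := by
  induction N with
  | zero => simp
  | succ N ih =>
    rw [Finset.sum_range_succ, Finset.sum_range_succ, ih]
    push_cast
    ring

/-- L-MASS-G2: one step of the column urn (pure identity, Abel summation; induction on `x` or `Finset.sum_range_succ`). -/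
theorem cavg_step (y x : ℕ) (ψ : ℕ → ℕ → ℝ) :
    cavg y (x + 1) (x + 1) ψ - cavg y x x ψ =
      ∑ i ∈ range (x + 1), ((x : ℝ) + 1)⁻¹ * (ψ (x + 1) (y + i) - ψ x (y + i))
        + ∑ i ∈ range (x + 1), (((i : ℝ) + 1) / (((x : ℝ) + 1) * ((x : ℝ) + 2))) * (ψ (x + 1) (y + i + 1) - ψ (x + 1) (y + i)) := by
  have h := grid_abel (fun i => ψ (x + 1) (y + i)) (x + 1)
  have e2 : ∑ i ∈ range (x + 1), (((i : ℝ) + 1) / (((x : ℝ) + 1) * ((x : ℝ) + 2)))
        * (ψ (x + 1) (y + i + 1) - ψ (x + 1) (y + i))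
      = (((x : ℝ) + 1) * ((x : ℝ) + 2))⁻¹ * ∑ i ∈ range (x + 1), ((i : ℝ) + 1)
        * (ψ (x + 1) (y + (i + 1)) - ψ (x + 1) (y + i)) := by
    rw [Finset.mul_sum]
    refine Finset.sum_congr rfl fun i _ => ?_
    rw [← add_assoc, div_eq_mul_inv]
    ring
  rw [e2, h, ← Finset.mul_sum, Finset.sum_sub_distrib]
  unfold cavg
  rw [Finset.sum_range_succ (fun i => ψ (x + 1) (y + i)) (x + 1)]
  have hx1 : ((x : ℝ) + 1) ≠ 0 := by positivity
  have hx2 : ((x : ℝ) + 2) ≠ 0 := by positivity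
  push_cast
  have hx3 : ((x : ℝ) + 1 + 1) ≠ 0 := by positivity
  field_simp
  ring

theorem grid_supp1 (M a k : ℕ) (h : a + k ≤ M) (F : ℕ → ℝ) :
    ∑ x ∈ range M, (if a ≤ x ∧ x < a + k then F x else 0) = ∑ j ∈ range k, F (a + j) := by
  rw [← Finset.sum_filter]
  have e : (range M).filter (fun x => a ≤ x ∧ x < a + k) = Finset.Ico a (a + k) := by
    ext x
    simp only [Finset.mem_filter, Finset.mem_range, Finset.mem_Ico]
    omega
  rw [e, Finset.sum_Ico_eq_sum_range, Nat.add_sub_cancel_left]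

/-- sums over a region `a ≤ x < a + k`, `b ≤ y < b + l x`. -/
theorem grid_supp2 (M1 M2 a k b : ℕ) (l : ℕ → ℕ) (h1 : a + k ≤ M1) (h2 : ∀ j < k, b + l (a + j) ≤ M2)
    (G : ℕ → ℕ → ℝ) :
    ∑ x ∈ range M1, ∑ y ∈ range M2, (if (a ≤ x ∧ x < a + k) ∧ (b ≤ y ∧ y < b + l x) then G x y else 0)
      = ∑ j ∈ range k, ∑ i ∈ range (l (a + j)), G (a + j) (b + i) := by
  have e : ∀ x, ∑ y ∈ range M2, (if (a ≤ x ∧ x < a + k) ∧ (b ≤ y ∧ y < b + l x) then G x y else 0)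
      = if a ≤ x ∧ x < a + k then ∑ y ∈ range M2, (if b ≤ y ∧ y < b + l x then G x y else 0) else 0 := by
    intro x
    by_cases hx : a ≤ x ∧ x < a + k
    · simp only [hx, true_and, if_true, and_self]
    · simp only [hx, false_and, if_false, Finset.sum_const_zero]
  simp only [e]
  rw [grid_supp1 M1 a k h1]
  refine Finset.sum_congr rfl fun j hj => ?_
  exact grid_supp1 M2 b _ (h2 j (Finset.mem_range.1 hj)) _

theorem grid_harm (n m : ℕ) (hn : n < m) : ∑ x ∈ range n, ((x : ℝ) + 1)⁻¹ ≤ 1 + Real.log m := by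
  have h := harmonic_le_one_add_log n
  have e : ((harmonic n : ℚ) : ℝ) = ∑ x ∈ range n, ((x : ℝ) + 1)⁻¹ := by
    unfold harmonic
    push_cast
    rfl
  rw [e] at h
  refine h.trans ?_
  rcases Nat.eq_zero_or_pos n with rfl | h0
  · have : (0 : ℝ) ≤ Real.log m := Real.log_natCast_nonneg m
    simpa using this
  · have : Real.log n ≤ Real.log m := Real.log_le_log (by exact_mod_cast h0) (by exact_mod_cast hn.le)
    linarith

/-- L-MASS-G3: the spreading flow.  `Th x y' = [x < n, y ≤ y' ≤ y+x] /(x+1)`, `Tv x y' = [1 ≤ x ≤ n, y ≤ y' < y+x] (y'-y+1)/(x(x+1))`. -/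
theorem gridFlow_spread (m y n : ℕ) (hy : y + n < m) :
    GridFlow m (fun ψ => cavg y n n ψ - ψ 0 y) (2 * (1 + Real.log m)) := by
  refine ⟨fun x y' => if (0 ≤ x ∧ x < 0 + n) ∧ (y ≤ y' ∧ y' < y + (x + 1)) then ((x : ℝ) + 1)⁻¹ else 0,
    fun x y' => if (1 ≤ x ∧ x < 1 + n) ∧ (y ≤ y' ∧ y' < y + x) then
      (((y' - y : ℕ) : ℝ) + 1) / ((x : ℝ) * ((x : ℝ) + 1)) else 0, fun ψ => ?_, ?_⟩
  · have tele : cavg y n n ψ - ψ 0 y = ∑ x ∈ range n, (cavg y (x + 1) (x + 1) ψ - cavg y x x ψ) := by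
      rw [Finset.sum_range_sub (fun x => cavg y x x ψ)]
      simp [cavg]
    show _ = cavg y n n ψ - ψ 0 y
    rw [tele]
    simp only [cavg_step, Finset.sum_add_distrib]
    unfold gridStat
    simp only [ite_mul, zero_mul]
    congr 1
    · rw [grid_supp2 (m - 1) m 0 n y (fun x => x + 1) (by omega) (fun j hj => by omega)
        (fun x y' => ((x : ℝ) + 1)⁻¹ * (ψ (x + 1) y' - ψ x y'))]
      simp only [zero_add]
    · rw [grid_supp2 m (m - 1) 1 n y (fun x => x) (by omega) (fun j hj => by omega)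
        (fun x y' => (((y' - y : ℕ) : ℝ) + 1) / ((x : ℝ) * ((x : ℝ) + 1)) * (ψ x (y' + 1) - ψ x y'))]
      refine Finset.sum_congr rfl fun j _ => ?_
      rw [add_comm 1 j]
      refine Finset.sum_congr rfl fun i _ => ?_
      rw [Nat.add_sub_cancel_left]
      push_cast
      rw [show (j : ℝ) + 1 + 1 = (j : ℝ) + 2 by ring]
  · unfold gridEn
    simp only [ite_pow, ne_eq, OfNat.ofNat_ne_zero, not_false_eq_true, zero_pow]
    rw [grid_supp2 (m - 1) m 0 n y (fun x => x + 1) (by omega) (fun j hj => by omega)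
        (fun x _ => (((x : ℝ) + 1)⁻¹) ^ 2),
      grid_supp2 m (m - 1) 1 n y (fun x => x) (by omega) (fun j hj => by omega)
        (fun x y' => ((((y' - y : ℕ) : ℝ) + 1) / ((x : ℝ) * ((x : ℝ) + 1))) ^ 2)]
    have hH := grid_harm n m (by omega)
    have b1 : ∑ j ∈ range n, ∑ _i ∈ range (0 + j + 1), ((((0 + j : ℕ) : ℝ) + 1)⁻¹) ^ 2
        = ∑ j ∈ range n, ((j : ℝ) + 1)⁻¹ := by
      refine Finset.sum_congr rfl fun j _ => ?_
      rw [Finset.sum_const, Finset.card_range, nsmul_eq_mul, zero_add]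
      push_cast
      have : ((j : ℝ) + 1) ≠ 0 := by positivity
      field_simp
    have b2 : ∑ j ∈ range n, ∑ i ∈ range (1 + j),
        ((((y + i - y : ℕ) : ℝ) + 1) / (((1 + j : ℕ) : ℝ) * (((1 + j : ℕ) : ℝ) + 1))) ^ 2
        ≤ ∑ j ∈ range n, ((j : ℝ) + 1)⁻¹ := by
      refine Finset.sum_le_sum fun j _ => ?_
      have hj : (0 : ℝ) < (j : ℝ) + 1 := by positivity
      have each : ∀ i ∈ range (1 + j),
          ((((y + i - y : ℕ) : ℝ) + 1) / (((1 + j : ℕ) : ℝ) * (((1 + j : ℕ) : ℝ) + 1))) ^ 2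
            ≤ (((j : ℝ) + 1)⁻¹) ^ 2 := by
        intro i hi
        rw [Finset.mem_range] at hi
        rw [Nat.add_sub_cancel_left]
        have hi' : (i : ℝ) + 1 ≤ (j : ℝ) + 1 := by exact_mod_cast (by omega : i + 1 ≤ j + 1)
        apply pow_le_pow_left₀ (by positivity)
        push_cast
        rw [div_le_iff₀ (by positivity), show (1 + (j : ℝ)) = (j : ℝ) + 1 by ring]
        have : ((j : ℝ) + 1)⁻¹ * (((j : ℝ) + 1) * ((j : ℝ) + 1 + 1)) = (j : ℝ) + 1 + 1 := by field_simp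
        rw [this]
        linarith
      refine (Finset.sum_le_sum each).trans (le_of_eq ?_)
      rw [Finset.sum_const, Finset.card_range, nsmul_eq_mul]
      push_cast
      field_simp
      ring
    linarith

/-- L-MASS-G4: straight rows between the columns `n` and `n'`. -/
theorem gridFlow_mid (m y n n' : ℕ) (hy : y + n < m) (hn : n ≤ n') (hn' : n' < m) :
    GridFlow m (fun ψ => cavg y n n' ψ - cavg y n n ψ) (((n' : ℝ) - n) / ((n : ℝ) + 1)) := by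
  refine ⟨fun x y' => if (n ≤ x ∧ x < n + (n' - n)) ∧ (y ≤ y' ∧ y' < y + (n + 1)) then ((n : ℝ) + 1)⁻¹ else 0,
    fun _ _ => 0, fun ψ => ?_, ?_⟩
  · unfold gridStat
    simp only [ite_mul, zero_mul, Finset.sum_const_zero, add_zero]
    rw [grid_supp2 (m - 1) m n (n' - n) y (fun _ => n + 1) (by omega) (fun j hj => by omega)
        (fun x y' => ((n : ℝ) + 1)⁻¹ * (ψ (x + 1) y' - ψ x y')), Finset.sum_comm]
    unfold cavg
    rw [← mul_sub, ← Finset.sum_sub_distrib, Finset.mul_sum]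
    refine Finset.sum_congr rfl fun i _ => ?_
    rw [← Finset.mul_sum]
    congr 1
    have h := Finset.sum_range_sub (fun j => ψ (n + j) (y + i)) (n' - n)
    rw [show n + (n' - n) = n' by omega, add_zero] at h
    rw [← h]
    rfl
  · unfold gridEn
    simp only [ite_pow, ne_eq, OfNat.ofNat_ne_zero, not_false_eq_true, zero_pow, Finset.sum_const_zero, add_zero]
    rw [grid_supp2 (m - 1) m n (n' - n) y (fun _ => n + 1) (by omega) (fun j hj => by omega)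
        (fun _ _ => (((n : ℝ) + 1)⁻¹) ^ 2)]
    simp only [Finset.sum_const, Finset.card_range, nsmul_eq_mul]
    rw [Nat.cast_sub hn]
    push_cast
    have : ((n : ℝ) + 1) ≠ 0 := by positivity
    apply le_of_eq
    field_simp

theorem gridFlow_row_low (m y : ℕ) (hy : y ≤ (m - 1) / 2) (hm : 0 < m) :
    GridFlow m (fun ψ => ψ (m - 1) y - ψ 0 y) (20 * (1 + Real.log m)) := by
  obtain ⟨n, hn⟩ : ∃ n, n = (m - 1) / 2 := ⟨_, rfl⟩
  have hyn : y + n < m := by omega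
  have A := gridFlow_spread m y n hyn
  have B := (gridFlow_reflX A).neg
  have C := gridFlow_mid m y n (m - 1 - n) hyn (by omega) (by omega)
  have D := (B.add3 C A)
  have hlog : (0 : ℝ) ≤ Real.log m := Real.log_natCast_nonneg m
  have hc : (((m - 1 - n : ℕ) : ℝ) - n) / ((n : ℝ) + 1) ≤ 1 := by
    rw [div_le_one (by positivity)]
    have : ((m - 1 - n : ℕ) : ℝ) ≤ (n : ℝ) + 1 := by exact_mod_cast (by omega : m - 1 - n ≤ n + 1)
    have h0 : (0 : ℝ) ≤ n := Nat.cast_nonneg n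
    linarith
  refine (D.mono (by linarith)).congr_fun' fun ψ => ?_
  simp only [cavg, Nat.sub_zero]
  ring

/-- L-MASS-G4: **a unit flow of logarithmic energy between the two ends of a row**.
`y ≤ (m-1)/2`, `n = (m-1)/2`, `n' = m-1-n ∈ {n, n+1}`: `ψ (m-1) y - ψ 0 y = -(cavg y n n' ψ - ψ (m-1) y) + (cavg y n n' ψ - cavg y n n ψ) + (cavg y n n ψ - ψ 0 y)`; the first bracket is `gridFlow_reflX` of `gridFlow_spread`.
`y > (m-1)/2`: `gridFlow_reflY` of the row `m-1-y`. -/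
theorem gridFlow_row (m y : ℕ) (hy : y < m) : GridFlow m (fun ψ => ψ (m - 1) y - ψ 0 y) (20 * (1 + Real.log m)) := by
  by_cases h : y ≤ (m - 1) / 2
  · exact gridFlow_row_low m y h (by omega)
  · have A := gridFlow_reflY (gridFlow_row_low m (m - 1 - y) (by omega) (by omega))
    beta_reduce at A
    rw [show m - 1 - (m - 1 - y) = y by omega] at A
    exact A

end

end Claimed.Agent.R285.Mass
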