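import Claimed.Agent.R285.Mag.Geo
import Claimed.Agent.R285.Mass.Grid

/-!
# ROW 285, unit MASS, file 2: the SHARP bound of the coefficient in the massive phase   (owner helper164; replaces [E] s6.2: loops, L6.2, (6.10), and the pinned limits in the proof of P6.4)

`μ = xyMass b`, `A = magA b`, `D_y = φ(m-1,y) - φ(0,y)`, `aCoef b m = m⁻² ∑_{y,y'} E D_y D_y'` (`sq_aCoef_eq`).
* `|y - y'| ≥ R`: `|E D_y D_y'| ≤ m² A e^{-μR}`                                  (`sq_row_row`, helper30);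
* `|y - y'| < R`: `|E D_y D_y'| ≤ ½ (E D_y² + E D_y'²) ≤ (2π)² b · 20 (1 + log m)`  (`ex_mul_le`, `sq_row_var`).
Hence  `aCoef b m ≤ A m² e^{-μR} + (2R/m) (2π)² b · 20 (1 + log m)`   (`sq_aCoef_sharp`): the coefficient is small as soon as `m ≥ ξ^{1+η}`, `ξ = 1/μ`
(`C4.coef_le` needs `m ≥ ξ^{3+η}`, which would only give `liminf δ log_L ξ ≥ T/3`).

`sq_row_var` = reference variance bound (`ref_var`) + a unit flow of logarithmic energy (`Mass/Grid.lean`).
`ref_var` in the Mag language is one line: with `n_e = ∇_e h`, `s_e = sin(d_e·θ)`,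
   `E n_e n_f = -b² ⟨s_e s_f⟩` (`e ≠ f`),  `E n_e² = b ⟨cos(d_e·θ)⟩ - b² ⟨s_e²⟩`,   so   `E (∑ t_e n_e)² = b ∑ t_e² ⟨cos(d_e·θ)⟩ - b² ⟨(∑ t_e s_e)²⟩ ≤ b ∑ t_e²`.
-/

set_option autoImplicit false

namespace Claimed.Agent.R285.Mass

open MeasureTheory Filter Topology Claims.C0459

noncomputable section

/-- the flow statistic `∑_e t_e ∇_e φ`. -/
def flw (G : HGraph) (t : G.E → ℝ) (φ : G.V → ℝ) : ℝ := ∑ e, t e * G.gr e φ

section Ref

variable {G : HGraph} {P : Set G.V} {W : Type*} [Fintype W] {d : G.E → W → ℤ}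

theorem flw_mul_eq (t t' : G.E → ℝ) : (fun φ : G.V → ℝ => flw G t φ * flw G t' φ) =
    fun φ => ∑ e, ∑ f, (t e * t' f) * (G.gr e φ * G.gr f φ) := by
  funext φ
  unfold flw
  rw [Finset.sum_mul_sum]
  exact Finset.sum_congr rfl fun e _ => Finset.sum_congr rfl fun f _ => by ring

/-- `⟨cos((a+a')θ)⟩ - ⟨cos((a-a')θ)⟩ = -2 ⟨sin(aθ) sin(a'θ)⟩`. -/
theorem flw_char_sub {E : Type*} [Fintype E] (D : E → W → ℤ) (J : E → ℝ) (a a' : W → ℤ) :
    xyChar D J (a + a') - xyChar D J (a - a') = -2 * xyEx D J fun θ => Real.sin (xyPh a θ) * Real.sin (xyPh a' θ) := by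
  have h : xyChar D J (a + a') = xyChar D J (a - a') + -2 * xyEx D J fun θ => Real.sin (xyPh a θ) * Real.sin (xyPh a' θ) := by
    unfold xyChar
    rw [← xyEx_const_mul, ← xyEx_add D J (xyNice_cos _) (((xyNice_sin a).mul (xyNice_sin a')).const_mul _)]
    congr 1
    funext θ
    rw [xyPh_add, xyPh_sub, Real.cos_add, Real.cos_sub]
    ring
  rw [h]; ring

theorem flw_xyEx_nonneg {E : Type*} [Fintype E] (D : E → W → ℤ) (J : E → ℝ) (f : (W → ℝ) → ℝ) (hf : ∀ θ, 0 ≤ f θ) :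
    0 ≤ xyEx D J f := by
  unfold xyEx xyInt
  exact div_nonneg (integral_nonneg fun θ => mul_nonneg (hf θ) (Real.exp_pos _).le) (xyPart_pos D J).le

theorem flw_xyEx_sum {E : Type*} [Fintype E] (D : E → W → ℤ) (J : E → ℝ) {ι : Type*} (B : Finset ι) (c : ι → ℝ)
    (f : ι → (W → ℝ) → ℝ) (hf : ∀ z ∈ B, XyNice (f z)) :
    xyEx D J (fun θ => ∑ z ∈ B, c z * f z θ) = ∑ z ∈ B, c z * xyEx D J (f z) := by
  classical
  unfold xyEx
  rw [xyInt_sum D J B c f hf, Finset.sum_div]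
  exact Finset.sum_congr rfl fun z _ => by rw [mul_div_assoc]

theorem flw_Zs_ne (hex : MagExact G P d) (b : ℝ) : G.Zs b P 0 0 (fun _ => 1) ≠ 0 := by
  rw [mag_Zs_eq hex]
  have h0 : magDiv d (0 : G.E → ℤ) = 0 := by simp [magDiv]
  rw [h0]
  have h1 : xyInt d (fun _ => b) (fun θ => Real.cos (xyPh (0 : W → ℤ) θ)) = xyPart d (fun _ => b) := by
    unfold xyPart; congr 1; funext θ; rw [xyPh_zero, Real.cos_zero]
  rw [h1]
  have := xyPart_pos d (fun _ : G.E => b)
  positivity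

open Classical in
/-- the bond covariance in the spin language. -/
theorem flw_cov (hex : MagExact G P d) (b : ℝ) (e f : G.E) :
    G.Ex b P (fun φ => G.gr e φ * G.gr f φ) = (2 * Real.pi) ^ 2 * ((if e = f then b * xyChar d (fun _ => b) (d e) else 0)
      - b ^ 2 * xyEx d (fun _ => b) fun θ => Real.sin (xyPh (d e) θ) * Real.sin (xyPh (d f) θ)) := by
  have hS : ∀ τ : G.E → ℤ, Summable fun h : G.Conf P => G.wt b τ h.1 := fun τ => mag_wt_summable hex b τ
  have hr : ∀ τ, G.ratio b P τ = xyChar d (fun _ => b) (magDiv d τ) := fun τ => mag_ratio_eq hex b τ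
  have key := flw_char_sub d (fun _ => b) (d e) (d f)
  by_cases hef : e = f
  · subst hef
    rw [if_pos rfl, magEx_gr_sq hS (flw_Zs_ne hex b)]
    simp only [hr]
    have e1 : magDiv d (2 • G.dl e) = d e + d e := by rw [two_smul, magDiv_add, magDiv_dl]
    rw [magDiv_neg, magDiv_neg, xyChar_neg, xyChar_neg, e1, magDiv_dl]
    rw [sub_self, xyChar_zero] at key
    linear_combination (2 * Real.pi) ^ 2 * (b ^ 2 / 2) * key
  · rw [if_neg hef, magEx_gr_gr hS e f hef]
    simp only [hr]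
    have e1 : magDiv d (G.dl e + G.dl f) = d e + d f := by rw [magDiv_add, magDiv_dl, magDiv_dl]
    have e2 : magDiv d (-G.dl e - G.dl f) = -(d e + d f) := by rw [magDiv_sub, magDiv_neg, magDiv_dl, magDiv_dl]; abel
    have e3 : magDiv d (G.dl e - G.dl f) = d e - d f := by rw [magDiv_sub, magDiv_dl, magDiv_dl]
    have e4 : magDiv d (-G.dl e + G.dl f) = -(d e - d f) := by rw [magDiv_add, magDiv_neg, magDiv_dl, magDiv_dl]; abel
    rw [e1, e2, e3, e4, xyChar_neg, xyChar_neg]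
    linear_combination (2 * Real.pi) ^ 2 * (b ^ 2 / 2) * key

/-- L-MASS-S1: products of flow statistics are summable (`magSm_gr_gr`, `MagSm.sum`, `MagSm.const_mul`, `mag_wt_summable`). -/
theorem flw_sm (hex : MagExact G P d) (b : ℝ) (t t' : G.E → ℝ) : MagSm G b P fun φ => flw G t φ * flw G t' φ := by
  have hS : ∀ τ : G.E → ℤ, Summable fun h : G.Conf P => G.wt b τ h.1 := fun τ => mag_wt_summable hex b τ
  rw [flw_mul_eq]
  exact MagSm.sum _ fun e _ => MagSm.sum _ fun f _ => (magSm_gr_gr hS e f).const_mul _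

/-- L-MASS-S1: **the reference variance bound** in the Mag language (see the header).
`magEx_sum`, `magEx_gr_gr`, `magEx_gr_sq` (`hZ`: `mag_Zs_eq`, `xyPart_pos`), `mag_ratio_eq` (`magDiv d (dl e ± dl f) = d e ± d f`), `xyChar_neg`, `cos(A+B) - cos(A-B) = -2 sin A sin B`,
`xyEx_add`, `xyEx_const_mul`, `xyChar_le_one`; `0 ≤ xyEx (square)` (integral of a nonnegative function divided by `xyPart_pos`). -/
theorem ref_var (hex : MagExact G P d) (b : ℝ) (hb : 0 ≤ b) (t : G.E → ℝ) :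
    G.Ex b P (fun φ => flw G t φ * flw G t φ) ≤ (2 * Real.pi) ^ 2 * b * ∑ e, t e ^ 2 := by
  classical
  have hS : ∀ τ : G.E → ℤ, Summable fun h : G.Conf P => G.wt b τ h.1 := fun τ => mag_wt_summable hex b τ
  have s2 : ∀ e f : G.E, MagSm G b P fun φ => (t e * t f) * (G.gr e φ * G.gr f φ) := fun e f => (magSm_gr_gr hS e f).const_mul _
  have s1 : ∀ e : G.E, MagSm G b P fun φ => ∑ f, (t e * t f) * (G.gr e φ * G.gr f φ) := fun e => MagSm.sum _ fun f _ => s2 e f
  rw [flw_mul_eq, magEx_sum _ fun e _ => s1 e]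
  have h1 : ∀ e : G.E, G.Ex b P (fun φ => ∑ f, (t e * t f) * (G.gr e φ * G.gr f φ)) =
      (2 * Real.pi) ^ 2 * (b * (t e ^ 2 * xyChar d (fun _ => b) (d e))
        - b ^ 2 * (t e * ∑ f, t f * xyEx d (fun _ => b) fun θ => Real.sin (xyPh (d e) θ) * Real.sin (xyPh (d f) θ))) := by
    intro e
    rw [magEx_sum _ fun f _ => s2 e f]
    simp only [magEx_const_mul, flw_cov hex b]
    have : ∀ f : G.E, t e * t f * ((2 * Real.pi) ^ 2 * ((if e = f then b * xyChar d (fun _ => b) (d e) else 0)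
        - b ^ 2 * xyEx d (fun _ => b) fun θ => Real.sin (xyPh (d e) θ) * Real.sin (xyPh (d f) θ))) =
        (2 * Real.pi) ^ 2 * ((if e = f then b * (t e ^ 2 * xyChar d (fun _ => b) (d e)) else 0)
          - b ^ 2 * (t e * (t f * xyEx d (fun _ => b) fun θ => Real.sin (xyPh (d e) θ) * Real.sin (xyPh (d f) θ)))) := by
      intro f
      by_cases hef : e = f
      · subst hef; rw [if_pos rfl, if_pos rfl]; ring
      · rw [if_neg hef, if_neg hef]; ring
    rw [Finset.sum_congr rfl fun f _ => this f, ← Finset.mul_sum, Finset.sum_sub_distrib, Finset.sum_ite_eq,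
      if_pos (Finset.mem_univ e), ← Finset.mul_sum, ← Finset.mul_sum]
  rw [Finset.sum_congr rfl fun e _ => h1 e, ← Finset.mul_sum, Finset.sum_sub_distrib, ← Finset.mul_sum, ← Finset.mul_sum, mul_assoc]
  have hsq : 0 ≤ ∑ e, t e * ∑ f, t f * xyEx d (fun _ => b) fun θ => Real.sin (xyPh (d e) θ) * Real.sin (xyPh (d f) θ) := by
    have n2 : ∀ e f : G.E, XyNice fun θ : W → ℝ => Real.sin (xyPh (d e) θ) * Real.sin (xyPh (d f) θ) :=
      fun e f => (xyNice_sin _).mul (xyNice_sin _)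
    have n1 : ∀ e : G.E, XyNice fun θ : W → ℝ => ∑ f, t f * (Real.sin (xyPh (d e) θ) * Real.sin (xyPh (d f) θ)) :=
      fun e => XyNice.sum _ _ _ fun f _ => n2 e f
    have e1 : ∑ e, t e * ∑ f, t f * xyEx d (fun _ => b) (fun θ => Real.sin (xyPh (d e) θ) * Real.sin (xyPh (d f) θ)) =
        xyEx d (fun _ => b) fun θ => (∑ e, t e * Real.sin (xyPh (d e) θ)) ^ 2 := by
      have e2 : (fun θ : W → ℝ => (∑ e, t e * Real.sin (xyPh (d e) θ)) ^ 2) = fun θ =>
          ∑ e, t e * ∑ f, t f * (Real.sin (xyPh (d e) θ) * Real.sin (xyPh (d f) θ)) := by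
        funext θ
        rw [sq, Finset.sum_mul_sum]
        refine Finset.sum_congr rfl fun e _ => ?_
        rw [Finset.mul_sum]
        exact Finset.sum_congr rfl fun f _ => by ring
      rw [e2, flw_xyEx_sum d _ _ _ _ fun e _ => n1 e]
      refine Finset.sum_congr rfl fun e _ => ?_
      rw [flw_xyEx_sum d _ _ _ _ fun f _ => n2 e f]
    rw [e1]
    exact flw_xyEx_nonneg d _ _ fun θ => sq_nonneg _
  have hch : ∑ e, t e ^ 2 * xyChar d (fun _ => b) (d e) ≤ ∑ e, t e ^ 2 :=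
    Finset.sum_le_sum fun e _ => by
      have := mul_le_mul_of_nonneg_left (xyChar_le_one d (fun _ => b) (d e)) (sq_nonneg (t e))
      linarith
  refine mul_le_mul_of_nonneg_left ?_ (by positivity)
  have := mul_le_mul_of_nonneg_left hch hb
  have := mul_nonneg (sq_nonneg b) hsq
  linarith

end Ref

/-- L-MASS-S2: `2 |E F F'| ≤ E F² + E F'²` (`magEx_nonneg` for `(F ∓ F')²`, `magEx_add`, `magEx_const_mul`). -/
theorem ex_mul_le {G : HGraph} {b : ℝ} {P : Set G.V} (hb : 0 ≤ b) {F F' : (G.V → ℝ) → ℝ} (h1 : MagSm G b P fun φ => F φ * F φ)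
    (h2 : MagSm G b P fun φ => F' φ * F' φ) (h3 : MagSm G b P fun φ => F φ * F' φ) :
    2 * |G.Ex b P fun φ => F φ * F' φ| ≤ G.Ex b P (fun φ => F φ * F φ) + G.Ex b P fun φ => F' φ * F' φ := by
  have key : ∀ c : ℝ, G.Ex b P (fun φ => (F φ * F φ + F' φ * F' φ) + c * (F φ * F' φ)) =
      G.Ex b P (fun φ => F φ * F φ) + G.Ex b P (fun φ => F' φ * F' φ) + c * G.Ex b P fun φ => F φ * F' φ := by
    intro c
    rw [magEx_add (h1.add h2) (h3.const_mul c), magEx_add h1 h2, magEx_const_mul]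
  have p1 : 0 ≤ G.Ex b P (fun φ => (F φ * F φ + F' φ * F' φ) + 2 * (F φ * F' φ)) :=
    magEx_nonneg hb fun φ => by nlinarith [sq_nonneg (F φ + F' φ)]
  have p2 : 0 ≤ G.Ex b P (fun φ => (F φ * F φ + F' φ * F' φ) + (-2) * (F φ * F' φ)) :=
    magEx_nonneg hb fun φ => by nlinarith [sq_nonneg (F φ - F' φ)]
  rw [key] at p1 p2
  rcases abs_cases (G.Ex b P fun φ => F φ * F' φ) with h | h <;> rw [h.1] <;> linarith

/-- the height of `square m` as a function on `ℕ × ℕ` (zero outside). -/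
def sqExt {m : ℕ} (φ : (square m).V → ℝ) (x y : ℕ) : ℝ := if h : x < m ∧ y < m then φ (sqV x y h.1 h.2) else 0

/-- a flow in coordinates as a flow on the edges of `square m`. -/
def sqT {m : ℕ} (Th Tv : ℕ → ℕ → ℝ) (e : (square m).E) : ℝ := if e.1.2 then Th e.1.1.1.1 e.1.1.2.1 else Tv e.1.1.1.1 e.1.1.2.1

/-- L-MASS-S3: the flow statistic in coordinates (`sq_sum_edges` with `Ψ β = T β · (φ̂(β.snd) - φ̂(β.1))`, or directly as in its proof). -/
theorem flw_sqT (m : ℕ) (Th Tv : ℕ → ℕ → ℝ) (φ : (square m).V → ℝ) :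
    flw (square m) (sqT Th Tv) φ = gridStat m Th Tv (sqExt φ) := by
  let Ψ : MagBond → ℝ := fun β => if β.2 then Th β.1.1.toNat β.1.2.toNat * (sqExt φ (β.1.1.toNat + 1) β.1.2.toNat - sqExt φ β.1.1.toNat β.1.2.toNat)
    else Tv β.1.1.toNat β.1.2.toNat * (sqExt φ β.1.1.toNat (β.1.2.toNat + 1) - sqExt φ β.1.1.toNat β.1.2.toNat)
  have h := sq_sum_edges m Ψ
  simp only [Ψ, if_true, Bool.false_eq_true, if_false, Int.toNat_natCast] at h
  unfold flw gridStat
  rw [← h]
  refine Finset.sum_congr rfl fun e _ => ?_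
  rcases sq_edge_cases e with ⟨x, y, hx, hy, rfl⟩ | ⟨x, y, hx, hy, rfl⟩
  · have hx' : x < m := by omega
    rw [sq_gr_H, sqBond_H]
    simp only [sqT, sqH, sqExt, hx, hy, hx', and_self, dif_pos, if_true, Int.toNat_natCast]
  · have hy' : y < m := by omega
    rw [sq_gr_U, sqBond_U]
    simp only [sqT, sqU, sqExt, hx, hy, hy', and_self, dif_pos, Bool.false_eq_true, if_false, Int.toNat_natCast]

/-- L-MASS-S3: the energy in coordinates. -/
theorem sum_sqT_sq (m : ℕ) (Th Tv : ℕ → ℕ → ℝ) : ∑ e : (square m).E, sqT Th Tv e ^ 2 = gridEn m Th Tv := by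
  let Ψ : MagBond → ℝ := fun β => if β.2 then Th β.1.1.toNat β.1.2.toNat ^ 2 else Tv β.1.1.toNat β.1.2.toNat ^ 2
  have h := sq_sum_edges m Ψ
  simp only [Ψ, if_true, Bool.false_eq_true, if_false, Int.toNat_natCast] at h
  unfold gridEn
  rw [← h]
  refine Finset.sum_congr rfl fun e _ => ?_
  rcases sq_edge_cases e with ⟨x, y, hx, hy, rfl⟩ | ⟨x, y, hx, hy, rfl⟩
  · rw [sqBond_H]
    simp only [sqT, sqH, if_true, Int.toNat_natCast]
  · rw [sqBond_U]
    simp only [sqT, sqU, Bool.false_eq_true, if_false, Int.toNat_natCast]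

/-- a unit flow of logarithmic energy between the two ends of a row of `square m`. -/
theorem sq_log_flow (m : ℕ) (hm : 0 < m) (y : Fin m) : ∃ t : (square m).E → ℝ,
    (∀ φ, flw (square m) t φ = sqRow m hm y φ) ∧ ∑ e, t e ^ 2 ≤ 20 * (1 + Real.log m) := by
  obtain ⟨Th, Tv, h1, h2⟩ := gridFlow_row m y.1 y.2
  refine ⟨sqT Th Tv, fun φ => ?_, (sum_sqT_sq m Th Tv).le.trans h2⟩
  rw [flw_sqT, h1]
  have hm1 : m - 1 < m := by omega
  simp only [sqExt, sqRow, sqV, hm1, y.2, hm, and_self, dif_pos]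

/-- **logarithmic bound for the variance of a height difference across the free square**. -/
theorem sq_row_var (b : ℝ) (hb : 0 < b) (m : ℕ) (hm : 0 < m) (y : Fin m) :
    (square m).Ex b {sqO m hm} (fun φ => sqRow m hm y φ * sqRow m hm y φ) ≤ (2 * Real.pi) ^ 2 * b * (20 * (1 + Real.log m)) := by
  obtain ⟨t, h1, h2⟩ := sq_log_flow m hm y
  have h3 := ref_var (sq_exact m hm) b hb.le t
  simp only [h1] at h3
  refine h3.trans ?_
  have : 0 ≤ (2 * Real.pi) ^ 2 * b := by positivity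
  exact mul_le_mul_of_nonneg_left h2 this

/-- L-MASS-S4: **the sharp bound** (see the header).  `sq_aCoef_eq`, expand the square (`magEx_sum`, `sq_row_row.1`), split the pairs `(y,y')` at `|y - y'| < R`; at most `2Rm` near pairs. -/
theorem sq_aCoef_sharp (b : ℝ) (hb : 0 < b) (m : ℕ) (hm : 0 < m) (R : ℕ) :
    aCoef b m ≤ magA b * (m : ℝ) ^ 2 * Real.exp (-(xyMass b * R))
      + 2 * (R : ℝ) / m * ((2 * Real.pi) ^ 2 * b * (20 * (1 + Real.log m))) := by
  classical
  have hA := magA_nonneg b hb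
  have hμ := xyMass_nonneg hb
  have hm' : (0 : ℝ) < m := by exact_mod_cast hm
  have hlog : 0 ≤ Real.log m := Real.log_nonneg (by exact_mod_cast hm)
  set ε : ℝ := (m : ℝ) ^ 2 * magA b * Real.exp (-(xyMass b * R)) with hε
  set κ : ℝ := (2 * Real.pi) ^ 2 * b * (20 * (1 + Real.log m)) with hκ
  have hκ0 : 0 ≤ κ := by rw [hκ]; positivity
  have hε0 : 0 ≤ ε := by rw [hε]; positivity
  rw [sq_aCoef_eq b m hm]
  have e : (fun φ : (square m).V → ℝ => ((m : ℝ)⁻¹ * ∑ y : Fin m, sqRow m hm y φ) ^ 2) = fun φ =>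
      ((m : ℝ)⁻¹) ^ 2 * ∑ y : Fin m, ∑ y' : Fin m, sqRow m hm y φ * sqRow m hm y' φ := by
    funext φ; rw [mul_pow, sq (∑ y : Fin m, sqRow m hm y φ), Finset.sum_mul_sum]
  have s1 : ∀ y : Fin m, MagSm (square m) b {sqO m hm} fun φ => ∑ y' : Fin m, sqRow m hm y φ * sqRow m hm y' φ :=
    fun y => MagSm.sum _ fun y' _ => (sq_row_row b hb m hm y y').1
  rw [e, magEx_const_mul, magEx_sum _ fun y _ => s1 y]
  have pair : ∀ y y' : Fin m, (square m).Ex b {sqO m hm} (fun φ => sqRow m hm y φ * sqRow m hm y' φ) ≤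
      ε + if |(y'.1 : ℝ) - (y.1 : ℝ)| < R then κ else 0 := by
    intro y y'
    refine (le_abs_self _).trans ?_
    split_ifs with h
    · have h1 := ex_mul_le hb.le (sq_row_row b hb m hm y y).1 (sq_row_row b hb m hm y' y').1 (sq_row_row b hb m hm y y').1
      have h2 := sq_row_var b hb m hm y
      have h3 := sq_row_var b hb m hm y'
      linarith
    · rw [add_zero]
      refine (sq_row_row b hb m hm y y').2.trans ?_
      rw [hε]
      refine mul_le_mul_of_nonneg_left ?_ (by positivity)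
      apply Real.exp_le_exp.2
      have := mul_le_mul_of_nonneg_left (not_lt.1 h) hμ
      linarith
  have row : ∀ y : Fin m, (square m).Ex b {sqO m hm} (fun φ => ∑ y' : Fin m, sqRow m hm y φ * sqRow m hm y' φ) ≤
      m * ε + 2 * R * κ := by
    intro y
    rw [magEx_sum _ fun y' _ => (sq_row_row b hb m hm y y').1]
    refine (Finset.sum_le_sum fun y' _ => pair y y').trans ?_
    rw [Finset.sum_add_distrib, Finset.sum_const, Finset.card_univ, Fintype.card_fin, nsmul_eq_mul,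
      ← Finset.sum_filter, Finset.sum_const, nsmul_eq_mul]
    have := mul_le_mul_of_nonneg_right (sq_near_card m R y) hκ0
    linarith
  have tot : ∑ y : Fin m, (square m).Ex b {sqO m hm} (fun φ => ∑ y' : Fin m, sqRow m hm y φ * sqRow m hm y' φ) ≤
      m * (m * ε + 2 * R * κ) := by
    refine (Finset.sum_le_sum fun y _ => row y).trans ?_
    rw [Finset.sum_const, Finset.card_univ, Fintype.card_fin, nsmul_eq_mul]
  refine (mul_le_mul_of_nonneg_left tot (by positivity)).trans (le_of_eq ?_)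
  rw [hε]
  field_simp

end

end Claimed.Agent.R285.Mass
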