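import Claimed.Agent.R285.Free.Rect
import Claimed.Agent.R285.Xy.Dual
import Claimed.Agent.R285.Mag.Sq
import Claimed.Agent.R285.Base.Height

/-!
# ROW 285, BP-SPIN-TILT (#16018, architect helper164): proof of `C2.spin_tilt` = McBryan-Spencer with free cells ([C]P2.6, [E]P6.5).   Paper-free, FINITE.

LAYERING: this file does NOT import `Read/C2.lean` nor `Mass/Tilt.lean`; `Read/C2.lean` imports it and links `C2.spin_tilt := Spin.spin_tilt ..`.

## ROUTE (currents; no planar duality of the whole box, no path construction)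
1. `spG R`: the spin graph of `xyBox R`, with edges INDEXED BY THE DUAL BONDS `dualBd R`, the edge `e` oriented from `magP e` to `magM e` (`rot ψ e = ψ (magP e) - ψ (magM e)`).
   `spG_energy`: its energy is the energy of `latJ b (xyBox R)`; so `latTwo = spinCh` (`spG_latTwo`), `= w(α)/w(0)` in the current system `(spG R).flowSys b` (`xy_duality_lsys`) if `div α = δ_y - δ_x`; if there is no such `α` then `latTwo = 0`.
2. `spG_div_apply`: the divergence at a spin vertex = circulation `circ` of the four dual bonds around it.   `rc_poincare`: zero circulation at the enclosed vertices of a rectangle of faces ⇒ gradient on the bonds of the rectangle.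
   Hence (`cell_grad`) the restriction of a current to a cell is a gradient as soon as its divergence vanishes at the enclosed vertices: this gives `LSys.Ref (cells) (currents)` AND the gauge change of the source flow `α`.
3. the released bonds are TWO-SITE RECTANGLES `two e` (helper200's remark): one family of bond-disjoint rectangles covering `dualBd R`: `spin_core`.
4. `lsys_ratio_mono` with `Y = ∑_i flowS (rot ψ)`: `Y = 0` on currents (`spG_tilt`: `∑_e rot ψ e · n_e = (div n)·ψ`), `Y(α) = ψ y - ψ x`; `wT_gauge`; `pi_mgf`; `lsys_reference` on the two-site rectangles.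
-/

set_option autoImplicit false

namespace Claimed.Agent.R285.Spin

open Filter Topology Claims.C0459 C2 Free
open scoped Classical

noncomputable section

/-! ## 1. The spin graph indexed by dual bonds -/

theorem mem_box {R : ℕ} {v : ℤ × ℤ} : v ∈ xyBox R ↔ (-(R : ℤ) ≤ v.1 ∧ v.1 ≤ R) ∧ (-(R : ℤ) ≤ v.2 ∧ v.2 ≤ R) := by
  simp [xyBox, Finset.mem_product]

theorem mem_ring {R : ℕ} {v : ℤ × ℤ} : v ∈ ring R ↔ (v.1 = -(R : ℤ) - 1 ∨ v.1 = R ∨ v.2 = -(R : ℤ) - 1 ∨ v.2 = R) := Iff.rfl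

theorem mem_dualRc {R : ℕ} {v : ℤ × ℤ} : v ∈ (dualRc R).set ↔ (-(R : ℤ) - 1 ≤ v.1 ∧ v.1 ≤ R) ∧ (-(R : ℤ) - 1 ≤ v.2 ∧ v.2 ≤ R) := by
  rw [fr_mem_set]
  simp only [dualRc]
  push_cast
  constructor
  · rintro ⟨⟨h1, h2⟩, h3, h4⟩
    exact ⟨⟨h1, by omega⟩, h3, by omega⟩
  · rintro ⟨⟨h1, h2⟩, h3, h4⟩
    exact ⟨⟨h1, by omega⟩, h3, by omega⟩

/-- L-SPIN-1. -/
theorem mem_dualBd {R : ℕ} {e : Bond} : e ∈ dualBd R ↔ magP e ∈ xyBox R ∧ magM e ∈ xyBox R := by
  unfold dualBd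
  rw [Finset.mem_filter, mem_bd, mem_dualRc, mem_dualRc, mem_ring, mem_ring, mem_box, mem_box]
  obtain ⟨⟨i, j⟩, _ | _⟩ := e
  · simp only [Bond.snd, magP, magM, Bool.false_eq_true, if_false]
    omega
  · simp only [Bond.snd, magP, magM, if_true]
    omega

theorem rot_eq (ψ : ℤ × ℤ → ℝ) (e : Bond) : rot ψ e = ψ (magP e) - ψ (magM e) := by
  obtain ⟨⟨i, j⟩, _ | _⟩ := e <;> simp [rot, magP, magM]

/-- the spin graph of the box: edges = dual bonds, `e` oriented from `magP e` to `magM e`. -/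
abbrev spG (R : ℕ) : HGraph where
  V := xyBox R
  E := dualBd R
  src e := ⟨magP e.1, (mem_dualBd.1 e.2).1⟩
  tgt e := ⟨magM e.1, (mem_dualBd.1 e.2).2⟩

/-- L-SPIN-2.  `latJ_energy` (Mag/Sq), `xyPh_sub`, `xyPh_del`; the dual bonds `(·,false)` are the horizontal spin bonds `x - x+(1,0)`, `x = magP e`; the dual bonds `(·,true)` are the vertical ones, `x = magM e`; `cos` is even. -/
theorem spG_energy (b : ℝ) (R : ℕ) (θ : xyBox R → ℝ) :
    xyEn (spG R).dvec (fun _ => b) θ = xyEn xyBond (latJ b (xyBox R)) θ := by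
  have hR : xyEn xyBond (latJ b (xyBox R)) θ = ∑ p : xyBox R × xyBox R, latJ b (xyBox R) p * Real.cos (θ p.1 - θ p.2) := by
    unfold xyEn
    refine Finset.sum_congr rfl fun p _ => ?_
    rw [xyBond, xyPh_sub, xyPh_del, xyPh_del]
  have hL : xyEn (spG R).dvec (fun _ => b) θ =
      ∑ e ∈ dualBd R, b * Real.cos (magExt (xyBox R) θ (magP e) - magExt (xyBox R) θ (magM e)) := by
    unfold xyEn
    rw [← Finset.sum_coe_sort (dualBd R)]
    refine Finset.sum_congr rfl fun e _ => ?_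
    rw [HGraph.dvec, xyPh_sub, xyPh_del, xyPh_del, magExt_mem θ (mem_dualBd.1 e.2).1, magExt_mem θ (mem_dualBd.1 e.2).2]
  rw [hR, hL, latJ_energy, Finset.sum_add_distrib, ← Finset.sum_filter, ← Finset.sum_filter,
    ← Finset.sum_filter_add_sum_filter_not (dualBd R) (fun e => e.2 = false)]
  congr 1
  · refine Finset.sum_nbij' (fun e => magP e) (fun x => ((x.1, x.2 - 1), false)) ?_ ?_ ?_ ?_ ?_
    · rintro ⟨⟨i, j⟩, c⟩ he
      obtain ⟨h1, h2⟩ := Finset.mem_filter.1 he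
      obtain rfl : c = false := h2
      obtain ⟨h3, h4⟩ := mem_dualBd.1 h1
      exact Finset.mem_filter.2 ⟨h3, h4⟩
    · rintro ⟨x, y⟩ hx
      obtain ⟨h1, h2⟩ := Finset.mem_filter.1 hx
      refine Finset.mem_filter.2 ⟨mem_dualBd.2 ⟨?_, ?_⟩, rfl⟩
      · simpa [magP] using h1
      · simpa [magM] using h2
    · rintro ⟨⟨i, j⟩, c⟩ he
      obtain rfl : c = false := (Finset.mem_filter.1 he).2
      simp [magP]
    · rintro ⟨x, y⟩ _
      simp [magP]
    · rintro ⟨⟨i, j⟩, c⟩ he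
      obtain rfl : c = false := (Finset.mem_filter.1 he).2
      rfl
  · refine Finset.sum_nbij' (fun e => magM e) (fun x => ((x.1 - 1, x.2), true)) ?_ ?_ ?_ ?_ ?_
    · rintro ⟨⟨i, j⟩, c⟩ he
      obtain ⟨h1, h2⟩ := Finset.mem_filter.1 he
      obtain rfl : c = true := by simpa using h2
      obtain ⟨h3, h4⟩ := mem_dualBd.1 h1
      exact Finset.mem_filter.2 ⟨h4, h3⟩
    · rintro ⟨x, y⟩ hx
      obtain ⟨h1, h2⟩ := Finset.mem_filter.1 hx
      refine Finset.mem_filter.2 ⟨mem_dualBd.2 ⟨?_, ?_⟩, by simp⟩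
      · simpa [magP] using h2
      · simpa [magM] using h1
    · rintro ⟨⟨i, j⟩, c⟩ he
      obtain rfl : c = true := by simpa using (Finset.mem_filter.1 he).2
      simp [magM]
    · rintro ⟨x, y⟩ _
      simp [magM]
    · rintro ⟨⟨i, j⟩, c⟩ he
      obtain rfl : c = true := by simpa using (Finset.mem_filter.1 he).2
      rw [← Real.cos_neg, neg_sub]
      rfl

theorem spG_spinCh (b : ℝ) (R : ℕ) (m : xyBox R → ℤ) : (spG R).spinCh b m = xyCh (latJ b (xyBox R)) m := by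
  have e : xyEn (spG R).dvec (fun _ => b) = xyEn xyBond (latJ b (xyBox R)) := funext fun θ => spG_energy b R θ
  unfold HGraph.spinCh xyCh xyChar xyEx xyPart xyInt
  rw [e]

theorem spG_latTwo (b : ℝ) (R : ℕ) (x y : ℤ × ℤ) (hx : x ∈ xyBox R) (hy : y ∈ xyBox R) :
    latTwo b (xyBox R) x y = (spG R).spinCh b (xyDel ⟨y, hy⟩ - xyDel ⟨x, hx⟩) := by
  rw [latTwo_symm, spG_spinCh]
  unfold latTwo
  rw [dif_pos ⟨hy, hx⟩]
  rfl

/-- the tilt is a function of the divergence. -/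
theorem spG_tilt (R : ℕ) (n : (spG R).E → ℤ) (ψ : ℤ × ℤ → ℝ) :
    ∑ e : (spG R).E, rot ψ e.1 * (n e : ℝ) = xyPh ((spG R).div n) fun v => ψ v.1 := by
  rw [xyPh_div]
  refine Finset.sum_congr rfl fun e _ => ?_
  rw [HGraph.dvec, xyPh_sub, xyPh_del, xyPh_del, rot_eq, mul_comm]

/-! ## 2. Divergence = circulation; the Poincare lemma on a rectangle of faces -/

/-- extension by zero of a current. -/
def ext0 (R : ℕ) (n : (spG R).E → ℤ) (e : Bond) : ℤ := if h : e ∈ dualBd R then n ⟨e, h⟩ else 0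

/-- circulation of a function of the dual bonds around the spin vertex `v`. -/
def circ (k : Bond → ℤ) (v : ℤ × ℤ) : ℤ :=
  k ((v.1 - 1, v.2 - 1), true) + k ((v.1, v.2 - 1), false) - k ((v.1 - 1, v.2), true) - k ((v.1 - 1, v.2 - 1), false)

/-- L-SPIN-3.  `magP e = v ↔ e = ((v.1-1,v.2-1),true) ∨ e = ((v.1,v.2-1),false)`, `magM e = v ↔ e = ((v.1-1,v.2),true) ∨ e = ((v.1-1,v.2-1),false)`.  Model: `rect_div_apply` (Xy/Dual). -/
theorem spG_div_apply (R : ℕ) (n : (spG R).E → ℤ) (v : xyBox R) : (spG R).div n v = circ (ext0 R n) v.1 := by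
  unfold HGraph.div HGraph.dvec xyDel
  simp only [Finset.sum_apply, Pi.smul_apply, Pi.sub_apply, smul_eq_mul, Pi.single_apply]
  have a1 : ∀ e : dualBd R, (if v = (spG R).src e then (1 : ℤ) else 0) =
      (if e.1 = ((v.1.1 - 1, v.1.2 - 1), true) then 1 else 0) + (if e.1 = ((v.1.1, v.1.2 - 1), false) then 1 else 0) := by
    rintro ⟨⟨⟨i, j⟩, c⟩, he⟩
    obtain ⟨⟨x, y⟩, hv⟩ := v
    have : ((⟨(x, y), hv⟩ : xyBox R) = (spG R).src ⟨((i, j), c), he⟩) ↔ (x, y) = magP ((i, j), c) := Subtype.ext_iff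
    simp only [this]
    cases c
    · simp only [magP, Prod.mk.injEq, Bool.false_eq_true, if_false, and_false, and_true, zero_add]
      congr 1
      exact propext ⟨fun h => ⟨h.1.symm, by omega⟩, fun h => ⟨h.1.symm, by omega⟩⟩
    · simp only [magP, Prod.mk.injEq, if_true, and_false, and_true, Bool.true_eq_false, if_false, add_zero]
      congr 1
      exact propext ⟨fun h => ⟨by omega, by omega⟩, fun h => ⟨by omega, by omega⟩⟩
  have a2 : ∀ e : dualBd R, (if v = (spG R).tgt e then (1 : ℤ) else 0) =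
      (if e.1 = ((v.1.1 - 1, v.1.2), true) then 1 else 0) + (if e.1 = ((v.1.1 - 1, v.1.2 - 1), false) then 1 else 0) := by
    rintro ⟨⟨⟨i, j⟩, c⟩, he⟩
    obtain ⟨⟨x, y⟩, hv⟩ := v
    have : ((⟨(x, y), hv⟩ : xyBox R) = (spG R).tgt ⟨((i, j), c), he⟩) ↔ (x, y) = magM ((i, j), c) := Subtype.ext_iff
    simp only [this]
    cases c
    · simp only [magM, Prod.mk.injEq, Bool.false_eq_true, if_false, and_false, and_true, zero_add]
      congr 1
      exact propext ⟨fun h => ⟨by omega, by omega⟩, fun h => ⟨by omega, by omega⟩⟩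
    · simp only [magM, Prod.mk.injEq, if_true, and_false, and_true, Bool.true_eq_false, if_false, add_zero]
      congr 1
      exact propext ⟨fun h => ⟨by omega, h.2.symm⟩, fun h => ⟨by omega, h.2.symm⟩⟩
  simp only [a1, a2, mul_sub, mul_add, Finset.sum_sub_distrib, Finset.sum_add_distrib]
  rw [xy_sum_ind, xy_sum_ind, xy_sum_ind, xy_sum_ind]
  unfold circ ext0
  ring

/-- L-SPIN-4 (**Poincare lemma on a rectangle**).  `h (i,j) = ∑_{a ∈ [o.1,i)} k((a,o.2),true) + ∑_{c ∈ [o.2,j)} k((i,c),false)`; vertical bonds by construction; horizontal bonds by induction on `j`, the step is `circ k (i+1,j+1) = 0`. -/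
theorem rc_poincare (Q : Rc) (k : Bond → ℤ) (hk : ∀ v ∈ Q.inner, circ k v = 0) :
    ∃ h : ℤ × ℤ → ℤ, ∀ e ∈ Q.bd, k e = h e.snd - h e.1 := by
  set H : ℕ → ℕ → ℤ := fun a c => ∑ a' ∈ Finset.range a, k ((Q.o.1 + (a' : ℤ), Q.o.2), true)
    + ∑ c' ∈ Finset.range c, k ((Q.o.1 + (a : ℤ), Q.o.2 + (c' : ℤ)), false) with hH
  have hV : ∀ a c : ℕ, H a (c + 1) - H a c = k ((Q.o.1 + (a : ℤ), Q.o.2 + (c : ℤ)), false) := by
    intro a c
    simp only [hH, Finset.sum_range_succ]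
    ring
  have hHor : ∀ c a : ℕ, a + 1 < Q.p → c < Q.q → H (a + 1) c - H a c = k ((Q.o.1 + (a : ℤ), Q.o.2 + (c : ℤ)), true) := by
    intro c
    induction c with
    | zero =>
      intro a _ _
      simp only [hH, Finset.sum_range_succ, Finset.range_zero, Finset.sum_empty, Nat.cast_zero, add_zero]
      ring
    | succ c ih =>
      intro a ha hc
      have h1 := ih a ha (by omega)
      have h2 := hV a c
      have h3 := hV (a + 1) c
      have h4 := hk (Q.o.1 + (a : ℤ) + 1, Q.o.2 + (c : ℤ) + 1) (by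
        show _ ∧ _ ∧ _ ∧ _
        simp only
        omega)
      unfold circ at h4
      simp only [add_sub_cancel_right] at h4
      push_cast at h3 ⊢
      rw [← add_assoc] at h3 ⊢
      linarith
  refine ⟨fun v => H (v.1 - Q.o.1).toNat (v.2 - Q.o.2).toNat, fun e he => ?_⟩
  have h1 : e.1 ∈ Q.set := domBonds_fst he
  have h2 : e.snd ∈ Q.set := domBonds_snd he
  obtain ⟨⟨i, j⟩, d⟩ := e
  simp only [Rc.set, Finset.mem_product, Finset.mem_Ico] at h1 h2
  obtain ⟨a, rfl⟩ : ∃ a : ℕ, i = Q.o.1 + a := ⟨(i - Q.o.1).toNat, by omega⟩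
  obtain ⟨c, rfl⟩ : ∃ c : ℕ, j = Q.o.2 + c := ⟨(j - Q.o.2).toNat, by omega⟩
  cases d with
  | true =>
    simp only [Bond.snd, if_true] at h2 ⊢
    have e1 : (Q.o.1 + (a : ℤ) + 1 - Q.o.1).toNat = a + 1 := by omega
    have e2 : (Q.o.1 + (a : ℤ) - Q.o.1).toNat = a := by omega
    have e3 : (Q.o.2 + (c : ℤ) - Q.o.2).toNat = c := by omega
    rw [e1, e2, e3]
    exact (hHor c a (by omega) (by omega)).symm
  | false =>
    simp only [Bond.snd, Bool.false_eq_true, if_false] at h2 ⊢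
    have e1 : (Q.o.2 + (c : ℤ) + 1 - Q.o.2).toNat = c + 1 := by omega
    have e2 : (Q.o.1 + (a : ℤ) - Q.o.1).toNat = a := by omega
    have e3 : (Q.o.2 + (c : ℤ) - Q.o.2).toNat = c := by omega
    rw [e1, e2, e3]
    exact (hV a c).symm

/-- the restriction of a current to a cell is a gradient if its divergence vanishes at the enclosed vertices. -/
theorem cell_grad (R : ℕ) (Q : Rc) (hsub : Q.bd ⊆ dualBd R) (n : (spG R).E → ℤ)
    (hn : ∀ v : xyBox R, v.1 ∈ Q.inner → (spG R).div n v = 0) :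
    ∃ h : ℤ × ℤ → ℤ, ∀ (e : Bond) (he : e ∈ Q.bd), n ⟨e, hsub he⟩ = h e.snd - h e.1 := by
  have hk : ∀ v ∈ Q.inner, circ (ext0 R n) v = 0 := by
    intro v hv
    have hb : (((v.1 - 1, v.2 - 1), true) : Bond) ∈ Q.bd := by
      obtain ⟨h1, h2, h3, h4⟩ := hv
      rw [mem_bd, fr_mem_set, fr_mem_set]
      simp only [Bond.snd, if_true]
      omega
    have hvb : v ∈ xyBox R := by
      have := (mem_dualBd.1 (hsub hb)).1
      simpa [magP] using this
    rw [← spG_div_apply R n ⟨v, hvb⟩]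
    exact hn ⟨v, hvb⟩ hv
  obtain ⟨h, hh⟩ := rc_poincare Q _ hk
  refine ⟨h, fun e he => ?_⟩
  rw [← hh e he, ext0, dif_pos (hsub he)]

/-! ## 3. Abstract layer -/

/-- L-SPIN-5.  Copy of `Rsd.hlaw_ok_of_isEmpty` (`Rsd.kit_ok_of_map`). -/
theorem flowSys_ok (G : HGraph) (b : ℝ) (hb : 0 < b) : (G.flowSys b).Ok := by
  set g : (G.E → ℤ) →+ (G.flowSys b).Amb := AddMonoidHom.inl (G.E → ℤ) (Empty → ℝ) with hg
  refine Rsd.kit_ok_of_map (G.flowSys b) (fun _ => hb) ((G.flowSys b).L.comap g) g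
    (LinearMap.inl ℝ (G.E → ℝ) (Empty → ℝ)) ?_ ?_ ?_
  · intro c
    rfl
  · intro x _ hx
    exact congrArg Prod.fst hx
  · refine (AddSubgroup.map_comap_eq_self_of_surjective ?_ _).symm
    intro z
    exact ⟨z.1, Prod.ext rfl (funext fun o => o.elim)⟩

/-- L-SPIN-6.  Tilted gauge change: reindex `z ↦ z + g` (proof of `Rsd.lsys_gauge`). -/
theorem wT_gauge (S : LSys) (g : S.L) (Y : S.L →+ ℝ) : S.wT (g : S.Amb) Y = Real.exp (-(Y g)) * S.wT 0 Y := by
  unfold LSys.wT LSys.Zf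
  rw [← tsum_mul_left, ← (Equiv.addRight g).tsum_eq fun z : S.L => Real.exp (-(Y g)) * (Real.exp (Y z) * S.W ((z : S.Amb) + 0))]
  refine tsum_congr fun z => ?_
  have h1 : (((Equiv.addRight g) z : S.L) : S.Amb) + 0 = (z : S.Amb) + g := by
    simp only [Equiv.coe_addRight, AddSubgroup.coe_add, add_zero]
  have h2 : Y ((Equiv.addRight g) z) = Y z + Y g := by
    simp only [Equiv.coe_addRight, map_add]
  rw [h1, h2, ← mul_assoc, ← Real.exp_add, neg_add_cancel_comm_assoc]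

/-! ## 4. Two-site rectangles -/

/-- the rectangle whose only bond is `e`. -/
def two (e : Bond) : Rc := if e.2 then ⟨e.1, 2, 1⟩ else ⟨e.1, 1, 2⟩

/-- L-SPIN-7. -/
theorem two_bd (e : Bond) : (two e).bd = {e} := by
  ext f
  rw [mem_bd, fr_mem_set, fr_mem_set, Finset.mem_singleton]
  obtain ⟨⟨i, j⟩, _ | _⟩ := e <;> obtain ⟨⟨i', j'⟩, _ | _⟩ := f <;> simp [two, Bond.snd] <;> omega

/-- L-SPIN-7. -/
theorem two_inner (e : Bond) (v : ℤ × ℤ) : v ∉ (two e).inner := by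
  rintro ⟨h1, h2, h3, h4⟩
  obtain ⟨⟨i, j⟩, _ | _⟩ := e <;> simp [two] at h1 h2 h3 h4 <;> omega

/-- L-SPIN-7.  `lsys_reference`, `fr_sum_E`, `two_bd`. -/
theorem two_mgf (b : ℝ) (hb : 0 < b) (e : Bond) (t : Bond → ℝ) :
    ((two e).sys b).E0 (fun z => Real.exp (flowS ((two e).sys b) (fun e' => t (domBond (D := (two e).set) (cut := ∅) e')) z))
      ≤ Real.exp (b * (Real.cosh (t e) - 1)) := by
  have h := lsys_reference ((two e).sys b) (fr_ok (two e) b hb) (fun e' => t (domBond (D := (two e).set) (cut := ∅) e'))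
  have h1 : ∑ e' : ((two e).sys b).E, ((two e).sys b).b e' * (Real.cosh (t (domBond (D := (two e).set) (cut := ∅) e')) - 1)
      = b * (Real.cosh (t e) - 1) := by
    have h2 := fr_sum_E (two e) (fun e' => b * (Real.cosh (t e') - 1))
    rw [two_bd, Finset.sum_singleton] at h2
    exact h2
  rw [h1] at h
  exact h

/-! ## 5. The core: a family of bond-disjoint rectangles covering the dual bonds -/

/-- the embedding of the bonds of the cells. -/
def cellE (R : ℕ) {κ : Type} (Q : κ → Rc) (hsub : ∀ i, (Q i).bd ⊆ dualBd R)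
    (hdis : ∀ i j, i ≠ j → Disjoint (Q i).bd (Q j).bd) : (Σ i, (Q i).G.E) ↪ (spG R).E where
  toFun p := ⟨domBond (D := (Q p.1).set) (cut := ∅) p.2, hsub p.1 p.2.2⟩
  inj' := by
    rintro ⟨i, e⟩ ⟨j, e'⟩ h
    have h1 : domBond (D := (Q i).set) (cut := ∅) e = domBond (D := (Q j).set) (cut := ∅) e' := congrArg Subtype.val h
    have hij : i = j := by
      by_contra hne
      have h2 : domBond (D := (Q i).set) (cut := ∅) e ∈ (Q j).bd := h1 ▸ e'.2
      exact Finset.disjoint_left.1 (hdis i j hne) e.2 h2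
    subst hij
    have : e = e' := Subtype.ext h1
    rw [this]

theorem cellE_bijective (R : ℕ) {κ : Type} (Q : κ → Rc) (hsub : ∀ i, (Q i).bd ⊆ dualBd R)
    (hdis : ∀ i j, i ≠ j → Disjoint (Q i).bd (Q j).bd) (hcov : ∀ e ∈ dualBd R, ∃ i, e ∈ (Q i).bd) :
    Function.Bijective (cellE R Q hsub hdis) := by
  refine ⟨(cellE R Q hsub hdis).injective, fun e => ?_⟩
  obtain ⟨i, hi⟩ := hcov e.1 e.2
  exact ⟨⟨i, ⟨e.1, hi⟩⟩, Subtype.ext rfl⟩

/-- the refinement "cells → currents". -/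
def cellRef (R : ℕ) (b : ℝ) {κ : Type} [Fintype κ] (Q : κ → Rc) (hsub : ∀ i, (Q i).bd ⊆ dualBd R)
    (hdis : ∀ i j, i ≠ j → Disjoint (Q i).bd (Q j).bd) : LSys.Ref (pi fun i => (Q i).sys b) ((spG R).flowSys b) where
  iE := cellE R Q hsub hdis
  iO := ⟨fun x => x.2.elim, fun x => x.2.elim⟩
  hb := fun _ => rfl
  map_mem := by
    intro z hz i
    have hz' : (spG R).div z.1 = 0 := hz
    obtain ⟨h, hh⟩ := cell_grad R (Q i) (hsub i) z.1 (fun v _ => by rw [hz']; rfl)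
    exact (fr_mem_L (Q i) b _).2 ⟨h, fun e => hh _ e.2⟩

/-- the tilt. -/
def cellY (b : ℝ) (ψ : ℤ × ℤ → ℝ) {κ : Type} [Fintype κ] (Q : κ → Rc) : (pi fun i => (Q i).sys b).L →+ ℝ :=
  ∑ i, (flowS ((Q i).sys b) (fun e => rot ψ (domBond (D := (Q i).set) (cut := ∅) e))).comp (piPr (fun i => (Q i).sys b) i)

theorem cellY_apply (b : ℝ) (ψ : ℤ × ℤ → ℝ) {κ : Type} [Fintype κ] (Q : κ → Rc) (w : (pi fun i => (Q i).sys b).L) :
    cellY b ψ Q w = ∑ i, flowS ((Q i).sys b) (fun e => rot ψ (domBond (D := (Q i).set) (cut := ∅) e)) (piPr (fun i => (Q i).sys b) i w) := by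
  simp only [cellY, AddMonoidHom.finsetSum_apply, AddMonoidHom.comp_apply]

theorem cellY_eq (R : ℕ) (b : ℝ) (ψ : ℤ × ℤ → ℝ) {κ : Type} [Fintype κ] (Q : κ → Rc) (hsub : ∀ i, (Q i).bd ⊆ dualBd R)
    (hdis : ∀ i j, i ≠ j → Disjoint (Q i).bd (Q j).bd) (hcov : ∀ e ∈ dualBd R, ∃ i, e ∈ (Q i).bd)
    (w : (pi fun i => (Q i).sys b).L) (n : (spG R).E → ℤ)
    (hw : ∀ p, (w : (pi fun i => (Q i).sys b).Amb).1 p = n (cellE R Q hsub hdis p)) :
    cellY b ψ Q w = xyPh ((spG R).div n) fun v => ψ v.1 := by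
  rw [cellY_apply, ← spG_tilt, ← (cellE_bijective R Q hsub hdis hcov).sum_comp, Fintype.sum_sigma]
  refine Finset.sum_congr rfl fun i _ => ?_
  show ∑ e : (Q i).G.E, rot ψ (domBond (D := (Q i).set) (cut := ∅) e) * (((w : (pi fun i => (Q i).sys b).Amb).1 ⟨i, e⟩ : ℤ) : ℝ) = _
  refine Finset.sum_congr rfl fun e _ => ?_
  have h1 := hw ⟨i, e⟩
  exact congrArg (fun t : ℤ => rot ψ (domBond (D := (Q i).set) (cut := ∅) e) * (t : ℝ)) h1

/-- L-SPIN-8. -/
theorem spin_core (b : ℝ) (hb : 0 < b) (R : ℕ) (x y : ℤ × ℤ) (hx : x ∈ xyBox R) (hy : y ∈ xyBox R) (ψ : ℤ × ℤ → ℝ)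
    {κ : Type} [Fintype κ] (Q : κ → Rc) (hsub : ∀ i, (Q i).bd ⊆ dualBd R)
    (hdis : ∀ i j, i ≠ j → Disjoint (Q i).bd (Q j).bd) (hcov : ∀ e ∈ dualBd R, ∃ i, e ∈ (Q i).bd)
    (hsrc : ∀ i, x ∉ (Q i).inner ∧ y ∉ (Q i).inner) :
    latTwo b (xyBox R) x y ≤ Real.exp (ψ x - ψ y)
      * ∏ i, ((Q i).sys b).E0 fun z => Real.exp (flowS ((Q i).sys b) (fun e => rot ψ (domBond (D := (Q i).set) (cut := ∅) e)) z) := by
  have hok : ∀ i, ((Q i).sys b).Ok := fun i => fr_ok (Q i) b hb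
  have hS : (pi fun i => (Q i).sys b).Ok := pi_ok _ hok
  have hS' : ((spG R).flowSys b).Ok := flowSys_ok _ b hb
  have hpos : 0 < Real.exp (ψ x - ψ y)
      * ∏ i, ((Q i).sys b).E0 fun z => Real.exp (flowS ((Q i).sys b) (fun e => rot ψ (domBond (D := (Q i).set) (cut := ∅) e)) z) :=
    mul_pos (Real.exp_pos _) (Finset.prod_pos fun i _ => fr_mgf_pos (Q i) b hb _)
  rw [spG_latTwo b R x y hx hy]
  by_cases hα : ∃ α : (spG R).E → ℤ, (spG R).div α = xyDel ⟨y, hy⟩ - xyDel ⟨x, hx⟩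
  · obtain ⟨α, hα⟩ := hα
    rw [← hα, xy_duality_lsys _ b hb.le α]
    have h := lsys_ratio_mono (cellRef R b Q hsub hdis) hS hS' (show ((spG R).flowSys b).Amb from (α, 0)) (cellY b ψ Q)
    have e1 : (cellY b ψ Q).comp (cellRef R b Q hsub hdis).psi = 0 := by
      ext z
      have hz : (spG R).div (z : ((spG R).flowSys b).Amb).1 = 0 := z.2
      rw [AddMonoidHom.comp_apply, cellY_eq R b ψ Q hsub hdis hcov _ (z : ((spG R).flowSys b).Amb).1 (fun p => rfl), hz, xyPh_zero]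
      rfl
    rw [e1, rd_wT_zero] at h
    have hg : (cellRef R b Q hsub hdis).res (show ((spG R).flowSys b).Amb from (α, 0)) ∈ (pi fun i => (Q i).sys b).L := by
      intro i
      obtain ⟨h, hh⟩ := cell_grad R (Q i) (hsub i) α (fun v hv => by
        rw [hα]
        have h1 : v ≠ ⟨y, hy⟩ := fun e => (hsrc i).2 (by rw [e] at hv; exact hv)
        have h2 : v ≠ ⟨x, hx⟩ := fun e => (hsrc i).1 (by rw [e] at hv; exact hv)
        simp [xyDel, h1, h2])
      exact (fr_mem_L (Q i) b _).2 ⟨h, fun e => hh _ e.2⟩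
    have e2 := wT_gauge (pi fun i => (Q i).sys b) ⟨_, hg⟩ (cellY b ψ Q)
    have e3 : cellY b ψ Q ⟨_, hg⟩ = ψ y - ψ x := by
      rw [cellY_eq R b ψ Q hsub hdis hcov _ α (fun p => rfl), hα, xyPh_sub, xyPh_del, xyPh_del]
    rw [e3, neg_sub] at e2
    refine h.trans (le_of_eq ?_)
    rw [e2, mul_div_assoc, ← rd_E0_exp, ← pi_mgf _ hok]
    congr 2
    funext z
    rw [cellY_apply]
  · rw [xy_flow_ratio _ b hb.le]
    have : IsEmpty {n : (spG R).E → ℤ // (spG R).div n = xyDel ⟨y, hy⟩ - xyDel ⟨x, hx⟩} := ⟨fun n => hα ⟨n.1, n.2⟩⟩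
    unfold HGraph.flowSum
    rw [tsum_empty, zero_div]
    exact hpos.le

/-! ## 6. The tilt inequality -/

/-- L-SPIN-9.  **`C2.spin_tilt`.** -/
theorem spin_tilt (b : ℝ) (hb : 0 < b) (R : ℕ) (x y : ℤ × ℤ) (hx : x ∈ xyBox R) (hy : y ∈ xyBox R) (ψ : ℤ × ℤ → ℝ)
    {ι : Type} [Fintype ι] (Q : ι → Rc) (hQ : ∀ i, ∀ v ∈ (Q i).set, v ∈ (dualRc R).set ∧ v ∉ ring R)
    (hdis : ∀ i j, i ≠ j → Disjoint (Q i).set (Q j).set) (hsrc : ∀ i, x ∉ (Q i).inner ∧ y ∉ (Q i).inner) :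
    latTwo b (xyBox R) x y ≤ Real.exp (ψ x - ψ y)
      * (∏ i, ((Q i).sys b).E0 fun z => Real.exp (flowS ((Q i).sys b) (fun e => rot ψ (domBond (D := (Q i).set) (cut := ∅) e)) z))
      * Real.exp (∑ e ∈ (dualBd R).filter (fun e => ∀ i, e ∉ (Q i).bd), b * (Real.cosh (rot ψ e) - 1)) := by
  obtain ⟨left, hleft⟩ : ∃ left : Finset Bond, left = (dualBd R).filter (fun e => ∀ i, e ∉ (Q i).bd) := ⟨_, rfl⟩
  rw [← hleft]
  have hl : ∀ e ∈ left, e ∈ dualBd R ∧ ∀ i, e ∉ (Q i).bd := fun e he => by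
    rw [hleft] at he
    exact Finset.mem_filter.1 he
  obtain ⟨Q', hQ'⟩ : ∃ Q' : ι ⊕ left → Rc, Q' = Sum.elim Q (fun e => two e.1) := ⟨_, rfl⟩
  have hQl : ∀ i, Q' (Sum.inl i) = Q i := fun i => by rw [hQ']; rfl
  have hQr : ∀ e, Q' (Sum.inr e) = two e.1 := fun e => by rw [hQ']; rfl
  have hsubQ : ∀ i, (Q i).bd ⊆ dualBd R := by
    intro i e he
    obtain ⟨h1, h2⟩ := mem_bd.1 he
    unfold dualBd
    rw [Finset.mem_filter, mem_bd]
    exact ⟨⟨(hQ i _ h1).1, (hQ i _ h2).1⟩, Or.inl (hQ i _ h1).2⟩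
  have hsub : ∀ i, (Q' i).bd ⊆ dualBd R := by
    rintro (i | e)
    · rw [hQl]; exact hsubQ i
    · rw [hQr, two_bd]
      exact Finset.singleton_subset_iff.2 (hl e.1 e.2).1
  have hdis' : ∀ i j, i ≠ j → Disjoint (Q' i).bd (Q' j).bd := by
    rintro (i | e) (j | e') hne
    · rw [hQl, hQl]
      exact Finset.disjoint_left.2 fun _ h1 h2 =>
        Finset.disjoint_left.1 (hdis i j fun h => hne (by rw [h])) (mem_bd.1 h1).1 (mem_bd.1 h2).1
    · rw [hQl, hQr, two_bd]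
      exact Finset.disjoint_singleton_right.2 ((hl e'.1 e'.2).2 i)
    · rw [hQl, hQr, two_bd]
      exact Finset.disjoint_singleton_left.2 ((hl e.1 e.2).2 j)
    · rw [hQr, hQr, two_bd, two_bd]
      exact Finset.disjoint_singleton.2 fun h => hne (by rw [Subtype.ext h])
  have hcov : ∀ e ∈ dualBd R, ∃ i, e ∈ (Q' i).bd := by
    intro e he
    by_cases h : ∀ i, e ∉ (Q i).bd
    · have hel : e ∈ left := by rw [hleft]; exact Finset.mem_filter.2 ⟨he, h⟩
      refine ⟨Sum.inr ⟨e, hel⟩, ?_⟩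
      rw [hQr, two_bd]
      exact Finset.mem_singleton_self _
    · push Not at h
      obtain ⟨i, hi⟩ := h
      exact ⟨Sum.inl i, by rw [hQl]; exact hi⟩
  have hsrc' : ∀ i, x ∉ (Q' i).inner ∧ y ∉ (Q' i).inner := by
    rintro (i | e)
    · rw [hQl]; exact hsrc i
    · rw [hQr]; exact ⟨two_inner _ _, two_inner _ _⟩
  have h := spin_core b hb R x y hx hy ψ Q' hsub hdis' hcov hsrc'
  rw [Fintype.prod_sum_type] at h
  subst hQ'
  simp only [Sum.elim_inl, Sum.elim_inr] at h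
  rw [mul_assoc]
  refine h.trans (mul_le_mul_of_nonneg_left (mul_le_mul_of_nonneg_left ?_ ?_) (Real.exp_pos _).le)
  · rw [← Finset.sum_coe_sort left, Real.exp_sum]
    exact Finset.prod_le_prod (fun e _ => (fr_mgf_pos _ b hb _).le) fun e _ => two_mgf b hb e.1 (rot ψ)
  · exact Finset.prod_nonneg fun i _ => (fr_mgf_pos _ b hb _).le

end

end Claimed.Agent.R285.Spin
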